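import Vale.Agent.P167.H635.Bridge

/-!
# The comparison of two boundary conditions which differ by the wiring of one block, `q ≤ 1`

`bil`: `E^{ξ'}[F; V not joined to the outside] E^ξ[G] ≤ E^ξ[F] E^{ξ'}[G]` for nonnegative functions
`F`, `G` of the squares of `V`.
-/

namespace Vale.Agent.P167.H635

open Finset Vale.Agent.P167.H623 Vale.Agent.P167.H661 Vale.Agent.P167.FK Vale.Agent.P167.FKA
open Vale.Agent.P145.FB (PStep PConn)
open Vale.Agent.P167.H259 (PC_mono cf_insert flip_cf cf_mono)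
open Vale.Agent.P167.H519 (pa_cor pb_cor pa_even pb_even pc_of_cor cf_in Sx Jn ind_le_of_imp)

set_option linter.unusedSectionVars false

section sums

variable {V E : Type*} [Fintype V] [DecidableEq V] [Fintype E] [DecidableEq E]
  (a b : E → V)

/-- Weighted sum of a function. -/
noncomputable def ZF (w : E → ℝ) (q : ℝ) (ρ : Setoid V) (g : Finset E → ℝ) : ℝ :=
  ∑ ω : Finset E, (∏ e ∈ ω, w e) * q ^ (classes (conf a b ω ⊔ ρ)).card * g ω

variable {w : E → ℝ} {q : ℝ}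

theorem ZF_one (ρ : Setoid V) : ZF a b w q ρ (fun _ => 1) = ZS a b w q ρ (fun _ => True) := by
  classical
  rw [ZF, ZS, filter_true, powerset_univ]
  exact sum_congr rfl fun ω _ => by rw [mul_one]

theorem ZF_mono (hw : ∀ e, 0 ≤ w e) (hq : 0 ≤ q) (ρ : Setoid V) {f g : Finset E → ℝ}
    (h : ∀ ω, f ω ≤ g ω) : ZF a b w q ρ f ≤ ZF a b w q ρ g :=
  sum_le_sum fun ω _ => mul_le_mul_of_nonneg_left (h ω)
    (mul_nonneg (prod_nonneg fun e _ => hw e) (pow_nonneg hq _))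

open Classical in
theorem ZF_split (ρ : Setoid V) (E0 : Finset E) (g : Finset E → ℝ) (A : Finset E → Prop) :
    ZF a b w q ρ (fun ω => g (ω ∩ E0) * (if A ω then 1 else 0)) =
      ∑ S ∈ E0.powerset, g S * ZS a b w q ρ (fun ω => ω ∩ E0 = S ∧ A ω) := by
  have h1 : ∀ S ∈ E0.powerset, g S * ZS a b w q ρ (fun ω => ω ∩ E0 = S ∧ A ω) =
      ∑ ω : Finset E, if ω ∩ E0 = S then
        (∏ e ∈ ω, w e) * q ^ (classes (conf a b ω ⊔ ρ)).card * (g (ω ∩ E0) *
          (if A ω then 1 else 0)) else 0 := by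
    intro S _
    rw [ZS, mul_sum, powerset_univ, sum_filter]
    refine sum_congr rfl fun ω _ => ?_
    by_cases h2 : ω ∩ E0 = S
    · by_cases h3 : A ω
      · rw [if_pos ⟨h2, h3⟩, if_pos h2, if_pos h3, h2]
        ring
      · rw [if_neg (fun k => h3 k.2), if_pos h2, if_neg h3]
        ring
    · rw [if_neg (fun k => h2 k.1), if_neg h2]
  rw [sum_congr rfl h1, sum_comm, ZF]
  refine sum_congr rfl fun ω _ => ?_
  rw [sum_ite_eq, if_pos (mem_powerset.2 inter_subset_right)]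

/-- The bilinear inequality on the graph. -/
theorem bil_graph (hw : ∀ e, 0 ≤ w e) (hq0 : 0 < q) (hq1 : q ≤ 1) (ρ : Setoid V) {W T : Finset V}
    (hW : W.Nonempty) (hT : T.Nonempty) {E0 : Finset E} (hE : ∀ e ∈ E0, a e ∈ T ∧ b e ∈ T)
    {f g k : Finset E → ℝ} (hf : ∀ S, 0 ≤ f S) (hg : ∀ S, 0 ≤ g S)
    (hk1 : ∀ ω, k ω ≤ 1)
    (hk2 : ∀ ω, (∃ x ∈ T, ∃ y ∈ W, (conf a b ω ⊔ ρ) x y) → k ω ≤ 0) :
    ZF a b w q (ρ ⊔ blk W) (fun ω => f (ω ∩ E0) * k ω) * ZF a b w q ρ (fun ω => g (ω ∩ E0)) ≤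
      ZF a b w q ρ (fun ω => f (ω ∩ E0)) * ZF a b w q (ρ ⊔ blk W) (fun ω => g (ω ∩ E0)) := by
  classical
  obtain ⟨M, hM⟩ : ∃ M : Finset E → Prop, ∀ ω, M ω ↔ ∀ x ∈ T, ∀ y ∈ W,
      ¬ (conf a b ω ⊔ ρ) x y := ⟨_, fun _ => Iff.rfl⟩
  have h0 : ZF a b w q (ρ ⊔ blk W) (fun ω => f (ω ∩ E0) * k ω) ≤
      ZF a b w q (ρ ⊔ blk W) (fun ω => f (ω ∩ E0) * (if M ω then 1 else 0)) := by
    refine ZF_mono a b hw hq0.le _ fun ω => mul_le_mul_of_nonneg_left ?_ (hf _)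
    split_ifs with h
    · exact hk1 ω
    · refine hk2 ω ?_
      rw [hM] at h
      push Not at h
      exact h
  have e1 : ∀ (σ : Setoid V) (h : Finset E → ℝ), ZF a b w q σ (fun ω => h (ω ∩ E0)) =
      ∑ S ∈ E0.powerset, h S * ZS a b w q σ (fun ω => ω ∩ E0 = S) := by
    intro σ h
    have h2 := ZF_split a b (w := w) (q := q) σ E0 h (fun _ => True)
    simp only [if_true, mul_one, and_true] at h2
    exact h2
  have hg0 : 0 ≤ ZF a b w q ρ (fun ω => g (ω ∩ E0)) :=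
    sum_nonneg fun ω _ => mul_nonneg (mul_nonneg (prod_nonneg fun e _ => hw e)
      (pow_nonneg hq0.le _)) (hg _)
  refine (mul_le_mul_of_nonneg_right h0 hg0).trans ?_
  rw [ZF_split, e1, e1, e1, sum_mul_sum, sum_mul_sum]
  refine sum_le_sum fun S hS => sum_le_sum fun S' hS' => ?_
  rw [mem_powerset] at hS hS'
  have h3 := star a b hw hq0 hq1 ρ hW hT hE hS hS'
  rw [← ZS_congr a b (fun ω => and_congr (Iff.refl (ω ∩ E0 = S)) (hM ω))] at h3
  have h4 := mul_le_mul_of_nonneg_left h3 (mul_nonneg (hf S) (hg S'))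
  calc _ = f S * g S' * (ZS a b w q (ρ ⊔ blk W) (fun ω => ω ∩ E0 = S ∧ M ω) *
          ZS a b w q ρ (fun ω => ω ∩ E0 = S')) := by ring
    _ ≤ _ := h4
    _ = _ := by ring

end sums

/-! ### The loop model -/

section model

variable {Q : ℝ} {A V : Finset (ℤ × ℤ)} {ξ ξ1 : Cfg}

/-- The squares of `A` which are open. -/
def dn (A U : Finset (ℤ × ℤ)) : Finset {v // v ∈ A} := U.subtype _

theorem up_dn {U : Finset (ℤ × ℤ)} (hU : U ⊆ A) : up A (dn A U) = U := by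
  ext v
  rw [mem_up]
  constructor
  · rintro ⟨h, h'⟩
    simpa [dn] using h'
  · intro h
    exact ⟨hU h, by simpa [dn] using h⟩

theorem dn_up (S : Finset {v // v ∈ A}) : dn A (up A S) = S := by
  ext v
  simp [dn, mem_up]

/-- The partition function of the graph and the expectation of the loop model. -/
theorem ex_zf (hQ : 0 < Q) (hξ : Good ξ) (F : Cfg → ℝ) :
    Ex Q A ξ F * ZS (ea A) (eb A) (fun _ => Q) (Q ^ 2) (rho A ξ) (fun _ => True) =
      ZF (ea A) (eb A) (fun _ => Q) (Q ^ 2) (rho A ξ) (fun S => F (cf A ξ (up A S))) := by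
  classical
  set k0 := (classes (conf (ea A) (eb A) ∅ ⊔ rho A ξ)).card with hk0
  have key : ∀ S : Finset {v // v ∈ A}, Q ^ LD A (cf A ξ (up A S)) * Q ^ (2 * k0) =
      Q ^ LD A (cf A ξ ∅) * ((∏ _e ∈ S, Q) *
        (Q ^ 2) ^ (classes (conf (ea A) (eb A) S ⊔ rho A ξ)).card) := by
    intro S
    rw [prod_const, ← pow_mul, ← pow_add, ← pow_add, ← pow_add, ld_eq A hξ S]
    congr 1
    omega
  have hsum : ∀ F : Cfg → ℝ, (∑ U ∈ A.powerset, Q ^ LD A (cf A ξ U) * F (cf A ξ U)) *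
      Q ^ (2 * k0) = Q ^ LD A (cf A ξ ∅) *
        ZF (ea A) (eb A) (fun _ => Q) (Q ^ 2) (rho A ξ) (fun S => F (cf A ξ (up A S))) := by
    intro F
    rw [ZF, mul_sum, sum_mul]
    refine sum_nbij' (fun U => dn A U) (fun S => up A S) ?_ ?_ ?_ ?_ ?_
    · intro U _
      exact mem_univ _
    · intro S _
      exact mem_powerset.2 (up_sub A S)
    · intro U hU
      exact up_dn (mem_powerset.1 hU)
    · intro S _
      exact dn_up S
    · intro U hU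
      have h1 := key (dn A U)
      rw [up_dn (mem_powerset.1 hU)] at h1 ⊢
      calc _ = (Q ^ LD A (cf A ξ U) * Q ^ (2 * k0)) * F (cf A ξ U) := by ring
        _ = _ := by rw [h1]; ring
  have h1 := hsum F
  have h2 := hsum (fun _ => 1)
  rw [ZF_one] at h2
  have hZ := Zq_pos hQ A ξ
  have hz : (∑ U ∈ A.powerset, Q ^ LD A (cf A ξ U) * (fun _ : Cfg => (1 : ℝ)) (cf A ξ U)) =
      Zq Q A ξ := by
    unfold Zq
    exact sum_congr rfl fun U _ => by rw [mul_one]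
  rw [hz] at h2
  have hx : (∑ U ∈ A.powerset, Q ^ LD A (cf A ξ U) * F (cf A ξ U)) = Ex Q A ξ F * Zq Q A ξ := by
    unfold Ex
    rw [div_mul_cancel₀ _ hZ.ne']
  rw [hx] at h1
  have hp : 0 < Q ^ LD A (cf A ξ ∅) := pow_pos hQ _
  have hk : 0 < Q ^ (2 * k0) := pow_pos hQ _
  have h3 : Q ^ LD A (cf A ξ ∅) * (Ex Q A ξ F *
      ZS (ea A) (eb A) (fun _ => Q) (Q ^ 2) (rho A ξ) (fun _ => True)) =
      Q ^ LD A (cf A ξ ∅) *
        ZF (ea A) (eb A) (fun _ => Q) (Q ^ 2) (rho A ξ) (fun S => F (cf A ξ (up A S))) := by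
    rw [← h1]
    calc _ = Ex Q A ξ F * (Q ^ LD A (cf A ξ ∅) *
          ZS (ea A) (eb A) (fun _ => Q) (Q ^ 2) (rho A ξ) (fun _ => True)) := by ring
      _ = _ := by rw [← h2]; ring
  exact mul_left_cancel₀ hp.ne' h3

/-- `ξ1` arises from `ξ` by the wiring of the sites of `𝓦` outside of `A`. -/
structure Wi (A : Finset (ℤ × ℤ)) (ξ ξ1 : Cfg) (𝓦 : Set (ℤ × ℤ)) : Prop where
  le : ∀ v, v ∉ A → ξ v = true → ξ1 v = true
  new : ∀ v, v ∉ A → ξ v = false → ξ1 v = true → FK.pa v ∈ 𝓦 ∧ FK.pb v ∈ 𝓦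
  con : ∀ s ∈ 𝓦, ∀ t ∈ 𝓦, PC (cf A ξ1 ∅) s t

/-- `ξ1` arises from `ξ` by the wiring of the sites of `𝓦`, which are corners of open squares,
outside of `A`. -/
structure Wire (A : Finset (ℤ × ℤ)) (ξ ξ1 : Cfg) (𝓦 : Set (ℤ × ℤ)) : Prop extends
    Wi A ξ ξ1 𝓦 where
  sub : 𝓦 ⊆ Sx A ξ1

theorem PC_out (h : ∀ v, v ∉ A → ξ v = true → ξ1 v = true) {S : Finset (ℤ × ℤ)} {s t : ℤ × ℤ}
    (hst : PC (cf A ξ S) s t) : PC (cf A ξ1 S) s t := by
  refine PC_mono (fun v hv => ?_) hst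
  by_cases hvA : v ∈ A
  · rw [cf_in hvA] at hv ⊢
    exact hv
  · rw [cf_out hvA] at hv ⊢
    exact h v hvA hv

open Classical in
/-- The block. -/
noncomputable def blW (A : Finset (ℤ × ℤ)) (ξ : Cfg) (𝓦 : Set (ℤ × ℤ)) :
    Finset {s // s ∈ corn A} := univ.filter fun s => ∃ z ∈ 𝓦, PC (cf A ξ ∅) s.1 z

theorem mem_blW {𝓦 : Set (ℤ × ℤ)} {s : {s // s ∈ corn A}} :
    s ∈ blW A ξ 𝓦 ↔ ∃ z ∈ 𝓦, PC (cf A ξ ∅) s.1 z := by
  classical
  rw [blW, mem_filter]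
  exact ⟨fun h => h.2, fun h => ⟨mem_univ _, h⟩⟩

theorem rho_wire {𝓦 : Set (ℤ × ℤ)} (h : Wi A ξ ξ1 𝓦) :
    rho A ξ1 = rho A ξ ⊔ blk (blW A ξ 𝓦) := by
  ext s t
  rw [sup_blk_iff, rho_iff, rho_iff]
  constructor
  · intro hst
    have key : ∀ u : ℤ × ℤ, PC (cf A ξ1 ∅) s.1 u → PC (cf A ξ ∅) s.1 u ∨
        ((∃ z ∈ 𝓦, PC (cf A ξ ∅) s.1 z) ∧ ∃ z ∈ 𝓦, PC (cf A ξ ∅) z u) := by
      intro u hu
      unfold PC at hu
      induction hu with
      | refl => exact Or.inl (PC_refl _ _)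
      | @tail y z hsy hyz ih =>
        have hcz := cor_of_step hyz
        have hm : cf A ξ1 ∅ (min y.1 z.1, min y.2 z.2) = true := hyz.2.2
        have hye : Even (y.1 + y.2) := by
          have h3 := rtg_parity (show Relation.ReflTransGen (PStep (op (cf A ξ1 ∅))) s.1 y
            from hsy)
          have h4 := corn_even A s.2
          rw [Int.even_iff] at *
          omega
        have hze : Even (z.1 + z.2) := (FKA.even_step hyz).1 hye
        have hvA : (min y.1 z.1, min y.2 z.2) ∉ A := by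
          intro hvA
          rw [cf_in hvA] at hm
          simp at hm
        rw [cf_out hvA] at hm
        by_cases hξv : ξ (min y.1 z.1, min y.2 z.2) = true
        · have hstep : PC (cf A ξ ∅) y z := by
            refine Relation.ReflTransGen.single ⟨hyz.1, hyz.2.1, ?_⟩
            show cf A ξ ∅ _ = true
            rw [cf_out hvA]
            exact hξv
          rcases ih with h1 | ⟨h1, w, hw, h2⟩
          · exact Or.inl (PC_trans h1 hstep)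
          · exact Or.inr ⟨h1, w, hw, PC_trans h2 hstep⟩
        · have hξv' : ξ (min y.1 z.1, min y.2 z.2) = false := by simpa using hξv
          obtain ⟨n1, n2⟩ := h.new _ hvA hξv' hm
          have hy : y ∈ 𝓦 := by
            rcases cor_pab hcz.1 hye with k | k
            · rw [k]; exact n1
            · rw [k]; exact n2
          have hz : z ∈ 𝓦 := by
            rcases cor_pab hcz.2 hze with k | k
            · rw [k]; exact n1
            · rw [k]; exact n2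
          rcases ih with h1 | ⟨h1, -⟩
          · exact Or.inr ⟨⟨y, hy, h1⟩, z, hz, PC_refl _ _⟩
          · exact Or.inr ⟨h1, z, hz, PC_refl _ _⟩
    rcases key t.1 hst with h1 | ⟨⟨z, hz, h1⟩, z', hz', h2⟩
    · exact Or.inl h1
    · exact Or.inr ⟨⟨s, mem_blW.2 ⟨z, hz, h1⟩, PC_refl _ _⟩,
        ⟨t, mem_blW.2 ⟨z', hz', PC_symm h2⟩, PC_refl _ _⟩⟩
  · rintro (h1 | ⟨⟨u, hu, h1⟩, u', hu', h2⟩)
    · exact PC_out h.le h1
    · obtain ⟨z, hz, h3⟩ := mem_blW.1 hu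
      obtain ⟨z', hz', h4⟩ := mem_blW.1 hu'
      exact PC_trans (PC_trans (PC_out h.le h1) (PC_out h.le h3))
        (PC_trans (h.con z hz z' hz')
          (PC_trans (PC_symm (PC_out h.le h4)) (PC_symm (PC_out h.le h2))))

/-- **The bilinear inequality**, for the connection of `V` with the sites of `𝓦`. -/
theorem bil_w (hQ0 : 0 < Q) (hQ1 : Q ≤ 1) (hVA : V ⊆ A) (hξ : Good ξ) (hξ1 : Good ξ1)
    {𝓦 : Set (ℤ × ℤ)} (h : Wi A ξ ξ1 𝓦) {F G : Cfg → ℝ} (hF0 : ∀ ω, 0 ≤ F ω)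
    (hG0 : ∀ ω, 0 ≤ G ω) (hF : Loc V F) (hG : Loc V G) :
    Ex Q A ξ1 (fun ω => F ω * (1 - {ω | Jn 𝓦 V ω}.indicator 1 ω)) * Ex Q A ξ G ≤
      Ex Q A ξ F * Ex Q A ξ1 G := by
  classical
  set w : {v // v ∈ A} → ℝ := fun _ => Q with hw
  have hw0 : ∀ e, 0 ≤ w e := fun _ => hQ0.le
  have hq0 : 0 < Q ^ 2 := pow_pos hQ0 2
  have hq1 : Q ^ 2 ≤ 1 := pow_le_one₀ hQ0.le hQ1
  have z0 := ZS_pos (ea A) (eb A) hw0 hq0 (rho A ξ)
  have z1 := ZS_pos (ea A) (eb A) hw0 hq0 (rho A ξ1)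
  have ind1 : ∀ ω, (1 : ℝ) - {ω | Jn 𝓦 V ω}.indicator 1 ω ≤ 1 := fun ω => by
    have := ind_nonneg {ω | Jn 𝓦 V ω} ω
    linarith
  -- the trivial cases
  have triv : ∀ c : ℝ, Ex Q A ξ1 (fun ω => F ω * (1 - {ω | Jn 𝓦 V ω}.indicator 1 ω)) ≤
      Ex Q A ξ1 F := fun _ => Ex_mono hQ0 fun S _ => by
    have h1 := ind1 (cf A ξ1 S)
    have h2 := hF0 (cf A ξ1 S)
    nlinarith
  have hEG : 0 ≤ Ex Q A ξ G := Ex_nonneg hQ0 fun _ _ => hG0 _
  have same : (∀ F : Cfg → ℝ, Loc V F → Ex Q A ξ1 F = Ex Q A ξ F) →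
      Ex Q A ξ1 (fun ω => F ω * (1 - {ω | Jn 𝓦 V ω}.indicator 1 ω)) * Ex Q A ξ G ≤
      Ex Q A ξ F * Ex Q A ξ1 G := by
    intro hs
    rw [hs G hG, ← hs F hF]
    exact mul_le_mul_of_nonneg_right (triv 0) hEG
  -- local functions do not see the outside
  have hloc : ∀ {F : Cfg → ℝ}, Loc V F → ∀ S : Finset {v // v ∈ A},
      F (cf A ξ1 (up A S)) = F (cf A ξ (up A S)) := by
    intro F hF S
    refine hF _ _ fun v hv => ?_
    rw [cf_in (hVA hv), cf_in (hVA hv)]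
  rcases V.eq_empty_or_nonempty with hV | hV
  · subst hV
    refine same fun F hF => ?_
    have hc : ∀ ω, F ω = F eta0 := fun ω => hF _ _ fun v hv => absurd hv (notMem_empty v)
    have : F = fun _ => F eta0 := funext hc
    rw [this, Ex_const hQ0, Ex_const hQ0]
  rcases (blW A ξ 𝓦).eq_empty_or_nonempty with hW | hW
  · have hρ : rho A ξ1 = rho A ξ := by
      rw [rho_wire h, hW]
      refine sup_eq_left.2 ?_
      rintro x y (rfl | ⟨k, -⟩)
      · exact Setoid.refl' _ _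
      · exact absurd k (notMem_empty _)
    refine same fun F hF => ?_
    have e1 := ex_zf hQ0 hξ1 F (A := A)
    have e2 := ex_zf hQ0 hξ F (A := A)
    rw [hρ] at e1
    have e3 : (fun S : Finset {v // v ∈ A} => F (cf A ξ1 (up A S))) =
        fun S => F (cf A ξ (up A S)) := funext fun S => hloc hF S
    rw [e3, ← e2] at e1
    exact mul_right_cancel₀ z0.ne' e1
  -- the main case
  set T : Finset {s // s ∈ corn A} := univ.filter fun s => s.1 ∈ corn V with hT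
  set E0 : Finset {v // v ∈ A} := univ.filter fun e => e.1 ∈ V with hE0
  have hE : ∀ e ∈ E0, ea A e ∈ T ∧ eb A e ∈ T := by
    intro e he
    rw [hE0, mem_filter] at he
    rw [hT, mem_filter, mem_filter]
    exact ⟨⟨mem_univ _, pa_corn V he.2⟩, mem_univ _, pb_corn V he.2⟩
  have hTn : T.Nonempty := by
    obtain ⟨v, hv⟩ := hV
    exact ⟨ea A ⟨v, hVA hv⟩, (hE _ (by rw [hE0, mem_filter]; exact ⟨mem_univ _, hv⟩)).1⟩
  have hin : ∀ {F : Cfg → ℝ}, Loc V F → ∀ S : Finset {v // v ∈ A},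
      F (cf A ξ (up A S)) = F (cf A ξ (up A (S ∩ E0))) := by
    intro F hF S
    refine hF _ _ fun v hv => ?_
    rw [cf_in (hVA hv), cf_in (hVA hv)]
    congr 1
    rw [mem_up, mem_up, eq_iff_iff]
    constructor
    · rintro ⟨h1, h2⟩
      exact ⟨h1, mem_inter.2 ⟨h2, by rw [hE0, mem_filter]; exact ⟨mem_univ _, hv⟩⟩⟩
    · rintro ⟨h1, h2⟩
      exact ⟨h1, (mem_inter.1 h2).1⟩
  have main := bil_graph (ea A) (eb A) hw0 hq0 hq1 (rho A ξ) hW hTn hE
    (f := fun S => F (cf A ξ (up A S))) (g := fun S => G (cf A ξ (up A S)))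
    (k := fun S => 1 - {ω | Jn 𝓦 V ω}.indicator 1 (cf A ξ1 (up A S)))
    (fun _ => hF0 _) (fun _ => hG0 _) (fun _ => ind1 _) (by
      rintro S ⟨x, hx, y, hy, hxy⟩
      rw [con_iff] at hxy
      obtain ⟨z, hz, hyz⟩ := mem_blW.1 hy
      have h1 : Jn 𝓦 V (cf A ξ1 (up A S)) := by
        have hx2 : x.1 ∈ V.image FK.pa ∪ V.image FK.pb := (mem_filter.1 hx).2
        rw [mem_union, mem_image, mem_image] at hx2
        refine ⟨z, hz, x.1, ?_, ?_⟩
        · rcases hx2 with ⟨v, hv, hvx⟩ | ⟨v, hv, hvx⟩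
          · exact ⟨v, hv, hvx ▸ pa_cor v⟩
          · exact ⟨v, hv, hvx ▸ pb_cor v⟩
        · exact PC_symm (PC_trans (PC_out h.le hxy) (PC_out h.le
            (PC_mono (cf_mono (empty_subset _)) hyz)))
      rw [Set.indicator_of_mem (show cf A ξ1 (up A S) ∈ {ω | Jn 𝓦 V ω} from h1)]
      simp)
  rw [← rho_wire h] at main
  -- back to the loop model
  have e1 := ex_zf hQ0 hξ1 (A := A) (fun ω => F ω * (1 - {ω | Jn 𝓦 V ω}.indicator 1 ω))
  have e2 := ex_zf hQ0 hξ G (A := A)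
  have e3 := ex_zf hQ0 hξ F (A := A)
  have e4 := ex_zf hQ0 hξ1 G (A := A)
  have c1 : (fun S : Finset {v // v ∈ A} => F (cf A ξ1 (up A S)) *
      (1 - {ω | Jn 𝓦 V ω}.indicator 1 (cf A ξ1 (up A S)))) =
      fun S => F (cf A ξ (up A (S ∩ E0))) *
        (1 - {ω | Jn 𝓦 V ω}.indicator 1 (cf A ξ1 (up A S))) :=
    funext fun S => by rw [hloc hF, hin hF]
  have c2 : (fun S : Finset {v // v ∈ A} => G (cf A ξ (up A S))) =
      fun S => G (cf A ξ (up A (S ∩ E0))) := funext fun S => hin hG S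
  have c3 : (fun S : Finset {v // v ∈ A} => F (cf A ξ (up A S))) =
      fun S => F (cf A ξ (up A (S ∩ E0))) := funext fun S => hin hF S
  have c4 : (fun S : Finset {v // v ∈ A} => G (cf A ξ1 (up A S))) =
      fun S => G (cf A ξ (up A (S ∩ E0))) := funext fun S => by rw [hloc hG, hin hG]
  rw [c1] at e1
  rw [c2] at e2
  rw [c3] at e3
  rw [c4] at e4
  rw [← e1, ← e2, ← e3, ← e4] at main
  have hzz := mul_pos z0 z1
  refine le_of_mul_le_mul_right ?_ hzz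
  linarith [main]

/-- **The bilinear inequality.** -/
theorem bil (hQ0 : 0 < Q) (hQ1 : Q ≤ 1) (hVA : V ⊆ A) (hξ : Good ξ) (hξ1 : Good ξ1)
    {𝓦 : Set (ℤ × ℤ)} (h : Wire A ξ ξ1 𝓦) {F G : Cfg → ℝ} (hF0 : ∀ ω, 0 ≤ F ω)
    (hG0 : ∀ ω, 0 ≤ G ω) (hF : Loc V F) (hG : Loc V G) :
    Ex Q A ξ1 (fun ω => F ω * (1 - {ω | Jn (Sx A ξ1) V ω}.indicator 1 ω)) * Ex Q A ξ G ≤
      Ex Q A ξ F * Ex Q A ξ1 G := by
  refine le_trans ?_ (bil_w hQ0 hQ1 hVA hξ hξ1 h.toWi hF0 hG0 hF hG)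
  refine mul_le_mul_of_nonneg_right (Ex_mono hQ0 fun S _ => ?_) (Ex_nonneg hQ0 fun _ _ => hG0 _)
  refine mul_le_mul_of_nonneg_left (sub_le_sub_left (ind_le_of_imp ?_) _) (hF0 _)
  rintro ⟨s, hs, u, hu, hsu⟩
  exact ⟨s, h.sub hs, u, hu, hsu⟩

end model

end Vale.Agent.P167.H635
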