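import Vale.Agent.P167.FKA.Dual

/-!
# Arm bounds next to a free boundary

`ArmAt Q x r R D p`: the bound `p` for a primal arm in the part of the annulus in the domain `D`, the
rest of the annulus being closed, for all configurations elsewhere. `Shp D x r R`: in the annulus the
domain is the intersection or the union of two coordinate half planes.
-/

namespace Vale.Agent.P167.H635

open Vale.Agent.P167.FK Vale.Agent.P167.FKA

variable {Q : ℝ} {x : ℤ × ℤ} {r r1 R1 R : ℤ} {A D D' : Finset (ℤ × ℤ)} {p : ℝ}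

/-- The squares of the annulus. -/
noncomputable def Ann (x : ℤ × ℤ) (r R : ℤ) : Finset (ℤ × ℤ) := Bq x R \ Bq x r

theorem mem_Bq {v : ℤ × ℤ} : v ∈ Bq x R ↔ x.1 - R ≤ v.1 ∧ v.1 < x.1 + R ∧ x.2 - R ≤ v.2 ∧
    v.2 < x.2 + R := by
  simp only [Bq, Finset.mem_product, Finset.mem_Ico]
  tauto

theorem mem_Ann {v : ℤ × ℤ} : v ∈ Ann x r R ↔ v ∈ Bq x R ∧ v ∉ Bq x r := Finset.mem_sdiff

theorem bq_mono (h : r ≤ R) : Bq x r ⊆ Bq x R := by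
  intro v hv
  rw [mem_Bq] at hv ⊢
  omega

theorem ann_mono (h1 : r ≤ r1) (h2 : R1 ≤ R) : Ann x r1 R1 ⊆ Ann x r R := by
  intro v hv
  obtain ⟨h3, h4⟩ := Finset.mem_sdiff.1 hv
  exact Finset.mem_sdiff.2 ⟨bq_mono h2 h3, fun h => h4 (bq_mono h1 h)⟩

theorem ann_box : Ann x r R ⊆ Bq x R := Finset.sdiff_subset

/-- `ξ` is closed on `B` off `A`. -/
def Cl (B A : Finset (ℤ × ℤ)) (ξ : Cfg) : Prop := ∀ v ∈ B, v ∉ A → ξ v = false

/-- **The arm bound** in the part of the annulus in the domain `D`, all conditions elsewhere. -/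
def ArmAt (Q : ℝ) (x : ℤ × ℤ) (r R : ℤ) (D : Finset (ℤ × ℤ)) (p : ℝ) : Prop :=
  ∀ η : Cfg, Good η → Cl (Ann x r R) D η →
    Pr Q (D ∩ Ann x r R) η {ω | ArmPx x r R ω} ≤ p

theorem ArmAt.congr (h : ArmAt Q x r R D p) (hD : D ∩ Ann x r R = D' ∩ Ann x r R) :
    ArmAt Q x r R D' p := by
  intro η hη hcl
  rw [← hD]
  refine h η hη fun v hv hvD => hcl v hv fun hvD' => hvD ?_
  have : v ∈ D ∩ Ann x r R := by
    rw [hD]
    exact Finset.mem_inter.2 ⟨hvD', hv⟩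
  exact (Finset.mem_inter.1 this).1

theorem ArmAt.le {p' : ℝ} (h : ArmAt Q x r R D p) (hp : p ≤ p') : ArmAt Q x r R D p' :=
  fun η hη hcl => (h η hη hcl).trans hp

/-! ### Shapes -/

/-- Coordinate half planes of squares. -/
def HP (H : ℤ × ℤ → Prop) : Prop :=
  ∃ c : ℤ, (∀ v, H v ↔ v.1 < c) ∨ (∀ v, H v ↔ c ≤ v.1) ∨ (∀ v, H v ↔ v.2 < c) ∨
    (∀ v, H v ↔ c ≤ v.2)

/-- Four thick rays from `x` in the coordinate directions (east, north, west, south). -/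
def InRay (x : ℤ × ℤ) (l h : Fin 4 → ℤ) (v : ℤ × ℤ) : Prop :=
  (x.1 ≤ v.1 ∧ l 0 ≤ v.2 ∧ v.2 < h 0) ∨ (x.2 ≤ v.2 ∧ l 1 ≤ v.1 ∧ v.1 < h 1) ∨
    (v.1 < x.1 ∧ l 2 ≤ v.2 ∧ v.2 < h 2) ∨ (v.2 < x.2 ∧ l 3 ≤ v.1 ∧ v.1 < h 3)

/-- The rays are in the bands of the box `(x, r)`. -/
def RayOk (x : ℤ × ℤ) (r : ℤ) (l h : Fin 4 → ℤ) : Prop :=
  (x.2 - r ≤ l 0 ∧ h 0 ≤ x.2 + r) ∧ (x.1 - r ≤ l 1 ∧ h 1 ≤ x.1 + r) ∧
    (x.2 - r ≤ l 2 ∧ h 2 ≤ x.2 + r) ∧ (x.1 - r ≤ l 3 ∧ h 3 ≤ x.1 + r)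

/-- In the annulus the domain is the intersection or the union of two coordinate half planes, or
its complement consists of at most four rays in the bands of the inner box. -/
def Shp (D : Finset (ℤ × ℤ)) (x : ℤ × ℤ) (r R : ℤ) : Prop :=
  (∃ H1 H2 : ℤ × ℤ → Prop, HP H1 ∧ HP H2 ∧ ((∀ v ∈ Ann x r R, v ∈ D ↔ H1 v ∧ H2 v) ∨
    (∀ v ∈ Ann x r R, v ∈ D ↔ H1 v ∨ H2 v))) ∨
  ∃ l h : Fin 4 → ℤ, RayOk x r l h ∧ ∀ v ∈ Ann x r R, v ∈ D ↔ ¬ InRay x l h v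

/-- **Decay of the arms next to a free boundary of these shapes.** -/
def ArmShp (Q α C : ℝ) : Prop := ∀ (x : ℤ × ℤ) (r R : ℤ) (D : Finset (ℤ × ℤ)), 1 ≤ r → r ≤ R →
  Shp D x r R → ArmAt Q x r R D (C * ((r : ℝ) / R) ^ α)

theorem RayOk.mono {l h : Fin 4 → ℤ} (k : RayOk x r l h) (h1 : r ≤ r1) : RayOk x r1 l h := by
  unfold RayOk at *
  omega

theorem Shp.mono (h : Shp D x r R) (h1 : r ≤ r1) (h2 : R1 ≤ R) : Shp D x r1 R1 := by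
  rcases h with ⟨H1, H2, a, b, c⟩ | ⟨l, h, a, c⟩
  · refine Or.inl ⟨H1, H2, a, b, ?_⟩
    rcases c with c | c
    · exact Or.inl fun v hv => c v (ann_mono h1 h2 hv)
    · exact Or.inr fun v hv => c v (ann_mono h1 h2 hv)
  · exact Or.inr ⟨l, h, a.mono h1, fun v hv => c v (ann_mono h1 h2 hv)⟩

theorem Shp.congr (h : Shp D x r R) (hD : ∀ v ∈ Ann x r R, v ∈ D ↔ v ∈ D') : Shp D' x r R := by
  rcases h with ⟨H1, H2, a, b, c⟩ | ⟨l, h, a, c⟩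
  · refine Or.inl ⟨H1, H2, a, b, ?_⟩
    rcases c with c | c
    · exact Or.inl fun v hv => (hD v hv).symm.trans (c v hv)
    · exact Or.inr fun v hv => (hD v hv).symm.trans (c v hv)
  · exact Or.inr ⟨l, h, a, fun v hv => (hD v hv).symm.trans (c v hv)⟩

theorem Shp.trace (h : Shp D x r R) (hD : D ∩ Ann x r R = D' ∩ Ann x r R) : Shp D' x r R := by
  refine h.congr fun v hv => ⟨fun k => ?_, fun k => ?_⟩
  · have : v ∈ D ∩ Ann x r R := Finset.mem_inter.2 ⟨k, hv⟩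
    rw [hD] at this
    exact (Finset.mem_inter.1 this).1
  · have : v ∈ D' ∩ Ann x r R := Finset.mem_inter.2 ⟨k, hv⟩
    rw [← hD] at this
    exact (Finset.mem_inter.1 this).1

/-- The trace on the larger box. -/
theorem Shp.traceB (h : Shp D x r R) (hD : D ∩ Bq x R = D' ∩ Bq x R) : Shp D' x r R := by
  refine h.congr fun v hv => ⟨fun k => ?_, fun k => ?_⟩
  · have : v ∈ D ∩ Bq x R := Finset.mem_inter.2 ⟨k, ann_box hv⟩
    rw [hD] at this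
    exact (Finset.mem_inter.1 this).1
  · have : v ∈ D' ∩ Bq x R := Finset.mem_inter.2 ⟨k, ann_box hv⟩
    rw [← hD] at this
    exact (Finset.mem_inter.1 this).1

/-- A half plane. -/
theorem shp_half {H : ℤ × ℤ → Prop} (hH : HP H) (h : ∀ v ∈ Ann x r R, v ∈ D ↔ H v) :
    Shp D x r R :=
  Or.inl ⟨H, H, hH, hH, Or.inl fun v hv => (h v hv).trans (and_self_iff).symm⟩

/-- An intersection of two half planes. -/
theorem shp_and {H1 H2 : ℤ × ℤ → Prop} (h1 : HP H1) (h2 : HP H2)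
    (h : ∀ v ∈ Ann x r R, v ∈ D ↔ H1 v ∧ H2 v) : Shp D x r R :=
  Or.inl ⟨H1, H2, h1, h2, Or.inl h⟩

/-- A union of two half planes. -/
theorem shp_or {H1 H2 : ℤ × ℤ → Prop} (h1 : HP H1) (h2 : HP H2)
    (h : ∀ v ∈ Ann x r R, v ∈ D ↔ H1 v ∨ H2 v) : Shp D x r R :=
  Or.inl ⟨H1, H2, h1, h2, Or.inr h⟩

/-- Rays. -/
theorem shp_ray {l h : Fin 4 → ℤ} (h1 : RayOk x r l h)
    (h2 : ∀ v ∈ Ann x r R, v ∈ D ↔ ¬ InRay x l h v) : Shp D x r R := Or.inr ⟨l, h, h1, h2⟩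

theorem shp_ge2 {c : ℤ} (h : ∀ v ∈ Ann x r R, v ∈ D ↔ c ≤ v.2) : Shp D x r R :=
  shp_half ⟨c, Or.inr (Or.inr (Or.inr fun _ => Iff.rfl))⟩ h

theorem shp_lt2 {c : ℤ} (h : ∀ v ∈ Ann x r R, v ∈ D ↔ v.2 < c) : Shp D x r R :=
  shp_half ⟨c, Or.inr (Or.inr (Or.inl fun _ => Iff.rfl))⟩ h

theorem shp_ge1 {c : ℤ} (h : ∀ v ∈ Ann x r R, v ∈ D ↔ c ≤ v.1) : Shp D x r R :=
  shp_half ⟨c, Or.inr (Or.inl fun _ => Iff.rfl)⟩ h

theorem shp_lt1 {c : ℤ} (h : ∀ v ∈ Ann x r R, v ∈ D ↔ v.1 < c) : Shp D x r R :=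
  shp_half ⟨c, Or.inl fun _ => Iff.rfl⟩ h

/-- The whole annulus. -/
theorem shp_full (h : Ann x r R ⊆ D) : Shp D x r R := by
  refine shp_ge2 (c := x.2 - R) fun v hv => ⟨fun _ => ?_, fun _ => h hv⟩
  have := mem_Bq.1 (ann_box hv)
  omega

/-- Nothing in the annulus. -/
theorem shp_none (h : ∀ v ∈ Ann x r R, v ∉ D) : Shp D x r R := by
  refine shp_lt2 (c := x.2 - R) fun v hv => ⟨fun k => absurd k (h v hv), fun k => ?_⟩
  have := mem_Bq.1 (ann_box hv)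
  omega

theorem HP.shift {H : ℤ × ℤ → Prop} (h : HP H) : HP fun v => H (v.1 - 1, v.2) := by
  obtain ⟨c, h | h | h | h⟩ := h
  · exact ⟨c + 1, Or.inl fun v => (h _).trans (by dsimp only; omega)⟩
  · exact ⟨c + 1, Or.inr (Or.inl fun v => (h _).trans (by dsimp only; omega))⟩
  · exact ⟨c, Or.inr (Or.inr (Or.inl fun v => h _))⟩
  · exact ⟨c, Or.inr (Or.inr (Or.inr fun v => h _))⟩

/-- The shift by `(1, 0)`. -/
theorem Shp.shift (h : Shp D x r R) (h1 : ∀ v, v ∈ D' ↔ (v.1 - 1, v.2) ∈ D) :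
    Shp D' (x.1 + 1, x.2) r R := by
  have key : ∀ v, v ∈ Ann (x.1 + 1, x.2) r R → (v.1 - 1, v.2) ∈ Ann x r R := by
    intro v hv
    rw [mem_Ann, mem_Bq, mem_Bq] at hv ⊢
    dsimp only at *
    omega
  rcases h with ⟨H1, H2, a, b, c⟩ | ⟨l, h, a, c⟩
  · refine Or.inl ⟨_, _, a.shift, b.shift, ?_⟩
    rcases c with c | c
    · exact Or.inl fun v hv => (h1 v).trans (c _ (key v hv))
    · exact Or.inr fun v hv => (h1 v).trans (c _ (key v hv))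
  · refine Or.inr ⟨fun i => if i = 1 ∨ i = 3 then l i + 1 else l i,
      fun i => if i = 1 ∨ i = 3 then h i + 1 else h i, ?_, fun v hv => ?_⟩
    · obtain ⟨⟨a1, a2⟩, ⟨a3, a4⟩, ⟨a5, a6⟩, a7, a8⟩ := a
      refine ⟨⟨?_, ?_⟩, ⟨?_, ?_⟩, ⟨?_, ?_⟩, ?_, ?_⟩ <;> simp <;> omega
    · rw [h1, c _ (key v hv)]
      unfold InRay
      simp

end Vale.Agent.P167.H635
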