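import Vale.Agent.P167.H635.Bil
import Vale.Agent.P167.H635.Shape
import Vale.Agent.P167.FKA.Out
import Vale.Agent.P167.H562.GTv

/-!
# Comparison with the boundary condition which is wired outside of a box, `q ≤ 1`

`A` is any set of squares of the box `(x, R)`; the configuration outside is closed in the part of the
box outside of `A` and arbitrary outside of the box.
-/

namespace Vale.Agent.P167.H635

open Finset Vale.Agent.P167.FK Vale.Agent.P167.FKA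
open Vale.Agent.P145.FB (PStep PConn)
open Vale.Agent.P167.H259 (f_markov Ex_out)
open Vale.Agent.P167.H519 (cf_in Sx Jn ind_le_of_imp Rat)
open Vale.Agent.P167.H562.GL (near_of_corx far_of_corx)

variable {Q : ℝ} {x : ℤ × ℤ} {r R : ℤ} {A V : Finset (ℤ × ℤ)} {ξ : Cfg} {F G : Cfg → ℝ} {p : ℝ}

/-- Open outside of the box, closed in the box. -/
noncomputable def wir (x : ℤ × ℤ) (R : ℤ) : Cfg := cf (Bq x R) eta1 ∅

theorem good_wir (x : ℤ × ℤ) (R : ℤ) : Good (wir x R) := f_good.1 _ _ _ f_good.2.2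

theorem wir_in {v : ℤ × ℤ} (h : v ∈ Bq x R) : wir x R v = false := by
  rw [wir, cf_in h]
  simp

theorem wir_out {v : ℤ × ℤ} (h : v ∉ Bq x R) : wir x R v = true := by
  rw [wir, cf_out h]
  rfl

/-- The even sites at distance at least `R` of `x`. -/
def far (x : ℤ × ℤ) (R : ℤ) : Set (ℤ × ℤ) := {s | Even (s.1 + s.2) ∧ R ≤ nm (s - x)}

theorem far_iff {s : ℤ × ℤ} : R ≤ nm (s - x) ↔
    s.1 ≤ x.1 - R ∨ x.1 + R ≤ s.1 ∨ s.2 ≤ x.2 - R ∨ x.2 + R ≤ s.2 := by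
  simp only [nm, Prod.fst_sub, Prod.snd_sub, le_max_iff, le_abs]
  omega

theorem wire_box (hA : A ⊆ Bq x R) (hfr : ∀ v ∈ Bq x R, v ∉ A → ξ v = false) :
    Wire A ξ (wir x R) (far x R) where
  le v hv hξ := by
    refine wir_out fun h => ?_
    rw [hfr v h hv] at hξ
    simp at hξ
  new v hv _ h1 := by
    have hvB : v ∉ Bq x R := fun h => by
      rw [wir_in h] at h1
      simp at h1
    exact ⟨⟨H519.pa_even v, far_of_corx hvB (H519.pa_cor v)⟩,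
      H519.pb_even v, far_of_corx hvB (H519.pb_cor v)⟩
  con s hs t ht := by
    refine outside_conn (a := x.1 - R) (b := x.1 + R - 1) (c := x.2 - R) (d := x.2 + R - 1)
      (fun v hv => ?_) hs.1 ht.1 ?_ ?_
    · show cf A (wir x R) ∅ v = true
      have hvB : v ∉ Bq x R := fun h => by
        rw [mem_Bq] at h
        omega
      rw [cf_out fun h => hvB (hA h), wir_out hvB]
    · have := far_iff.1 hs.2
      omega
    · have := far_iff.1 ht.2
      omega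
  sub s hs := by
    obtain ⟨h1, h2⟩ := hs
    rw [far_iff] at h2
    have key : ∀ v : ℤ × ℤ, v ∉ Bq x R → Cor v s → s ∈ Sx A (wir x R) := fun v hv hc =>
      ⟨h1, v, fun h => hv (hA h), wir_out hv, hc⟩
    rcases h2 with h2 | h2 | h2 | h2
    · refine key (s.1 - 1, s.2) ?_ ⟨Or.inr (by simp), Or.inl rfl⟩
      rw [mem_Bq]
      simp only
      omega
    · refine key s ?_ ⟨Or.inl rfl, Or.inl rfl⟩
      rw [mem_Bq]
      omega
    · refine key (s.1, s.2 - 1) ?_ ⟨Or.inl rfl, Or.inr (by simp)⟩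
      rw [mem_Bq]
      simp only
      omega
    · refine key s ?_ ⟨Or.inl rfl, Or.inl rfl⟩
      rw [mem_Bq]
      omega

/-- A connection with the outside of the box gives an arm. -/
theorem arm_of_jn (hrR : r ≤ R) (hV : V ⊆ Bq x r) {ω : Cfg} (h : Jn (Sx A (wir x R)) V ω) : ArmPx x r R ω := by
  obtain ⟨s, ⟨hse, v, -, hv, hvs⟩, u, ⟨w, hw, hwu⟩, hsu⟩ := h
  have hvR : v ∉ Bq x R := fun h' => by rw [wir_in h'] at hv; simp at hv
  rw [armPx_iff hrR]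
  refine ⟨u, s, ?_, near_of_corx (hV hw) hwu, far_of_corx hvR hvs, H519.conn_symm hsu⟩
  have := rtg_parity hsu
  rw [Int.even_iff] at *
  omega

theorem sub_ind (F : Cfg → ℝ) (B : Set Cfg) :
    Ex Q A ξ (fun ω => F ω * (1 - B.indicator 1 ω)) =
      Ex Q A ξ F - Ex Q A ξ (fun ω => F ω * B.indicator 1 ω) := by
  rw [← Ex_sub]
  refine Ex_congr fun S _ => ?_
  ring

/-- **Up**: from the wired condition outside of the box to any condition. -/
theorem up_w (hQ0 : 0 < Q) (hQ1 : Q ≤ 1) (hrR : r ≤ R) (hVA : V ⊆ A) (hA : A ⊆ Bq x R)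
    (hV : V ⊆ Bq x r) (hξ : Good ξ) (hfr : ∀ v ∈ Bq x R, v ∉ A → ξ v = false)
    (hF0 : ∀ ω, 0 ≤ F ω) (hF : Loc V F)
    (hp : Ex Q A (wir x R) (fun ω => F ω * {ω | ArmPx x r R ω}.indicator 1 ω) ≤
      p * Ex Q A (wir x R) F) : (1 - p) * Ex Q A (wir x R) F ≤ Ex Q A ξ F := by
  have h := bil hQ0 hQ1 hVA hξ (good_wir x R) (wire_box hA hfr) hF0
    (G := fun _ => 1) (fun _ => zero_le_one) hF (fun _ _ _ => rfl)
  rw [Ex_const hQ0, Ex_const hQ0, mul_one, mul_one, sub_ind] at h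
  have h7 : Ex Q A (wir x R) (fun τ => F τ * {τ | Jn (Sx A (wir x R)) V τ}.indicator 1 τ) ≤
      Ex Q A (wir x R) (fun τ => F τ * {τ | ArmPx x r R τ}.indicator 1 τ) :=
    Ex_mono hQ0 fun S _ => mul_le_mul_of_nonneg_left (ind_le_of_imp fun h =>
      arm_of_jn hrR hV h) (hF0 _)
  linarith

/-- **Down**: from any condition to the wired condition outside of the box. -/
theorem dn_w (hQ0 : 0 < Q) (hQ1 : Q ≤ 1) (hrR : r ≤ R) (hVA : V ⊆ A) (hA : A ⊆ Bq x R)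
    (hV : V ⊆ Bq x r) (hξ : Good ξ) (hfr : ∀ v ∈ Bq x R, v ∉ A → ξ v = false)
    (hF0 : ∀ ω, 0 ≤ F ω) (hF : Loc V F)
    (hp : Pr Q A (wir x R) {ω | ArmPx x r R ω} ≤ p) :
    (1 - p) * Ex Q A ξ F ≤ Ex Q A (wir x R) F := by
  have h := bil hQ0 hQ1 hVA hξ (good_wir x R) (wire_box hA hfr) (F := fun _ => 1)
    (fun _ => zero_le_one) hF0 (fun _ _ _ => rfl) hF
  rw [Ex_const hQ0, one_mul, sub_ind (fun _ => 1), Ex_const hQ0] at h
  have h7 : Ex Q A (wir x R) (fun τ => 1 * {τ | Jn (Sx A (wir x R)) V τ}.indicator 1 τ) ≤ p := by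
    refine le_trans (Ex_mono hQ0 fun S _ => ?_) hp
    rw [one_mul]
    exact ind_le_of_imp fun h => arm_of_jn hrR hV h
  have h8 : 0 ≤ Ex Q A ξ F := Ex_nonneg hQ0 fun _ _ => hF0 _
  nlinarith

/-! ### Full boxes -/

/-- **Ratio mixing**, the box. -/
theorem rat_w (hQ0 : 0 < Q) (hQ1 : Q ≤ 1) {L : ℤ} (hL : Rat Q L) (hr : 1 ≤ r)
    (hV : V ⊆ Bq x r) (hF0 : ∀ ω, 0 ≤ F ω) (hFV : Loc V F) (hξ : Good ξ) :
    Ex Q (Bq x (L * r)) ξ F ≤ 2 * Ex Q (Bq x (L * r)) (wir x (L * r)) F ∧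
      Ex Q (Bq x (L * r)) (wir x (L * r)) F ≤ 2 * Ex Q (Bq x (L * r)) ξ F := by
  obtain ⟨hL2, hrat⟩ := hL
  have hrL : r ≤ L * r := by nlinarith
  have hBB : Bq x r ⊆ Bq x (L * r) := by
    intro v hv
    rw [mem_Bq] at hv ⊢
    omega
  have h5 := (hrat x r (L * r) (Bq x (L * r)) (wir x (L * r)) F hr le_rfl (good_wir _ _)
    sdiff_subset hF0
    (fun τ τ' h => hFV τ τ' fun v hv => h v fun h' => (Finset.mem_sdiff.1 h').2 (hV hv))).1
  have h6 := (hrat x r (L * r) (Bq x (L * r)) (wir x (L * r)) (fun _ => 1) hr le_rfl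
    (good_wir _ _) sdiff_subset (fun _ => zero_le_one) (fun _ _ _ => rfl)).1
  rw [Ex_const hQ0, mul_one] at h6
  simp only [one_mul] at h6
  have h7 := up_w hQ0 hQ1 hrL (hV.trans hBB) subset_rfl hV hξ (fun v h h' => absurd h h') hF0 hFV h5
  have h8 := dn_w hQ0 hQ1 hrL (hV.trans hBB) subset_rfl hV hξ (fun v h h' => absurd h h') hF0 hFV h6
  constructor <;> linarith

/-- **Ratio mixing**: any two boundary conditions. -/
theorem rat_all (hQ0 : 0 < Q) (hQ1 : Q ≤ 1) {L : ℤ} (hL : Rat Q L) (hr : 1 ≤ r)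
    (hA : Bq x (L * r) ⊆ A) (hV : V ⊆ Bq x r) (hF0 : ∀ ω, 0 ≤ F ω) (hFV : Loc V F) {ξ' : Cfg}
    (hξ : Good ξ) (hξ' : Good ξ') : Ex Q A ξ F ≤ 4 * Ex Q A ξ' F := by
  set W := Ex Q (Bq x (L * r)) (wir x (L * r)) F with hW
  have h1 : Ex Q A ξ F ≤ 2 * W := by
    rw [f_markov Q (Bq x (L * r)) A ξ F hQ0 hA hξ, ← Ex_const (Q := Q) (D := A) (η := ξ) hQ0
      (2 * W)]
    exact Ex_mono hQ0 fun S _ => (rat_w hQ0 hQ1 hL hr hV hF0 hFV (f_good.1 A ξ S hξ)).1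
  have h2 : 1 / 2 * W ≤ Ex Q A ξ' F := by
    rw [f_markov Q (Bq x (L * r)) A ξ' F hQ0 hA hξ', ← Ex_const (Q := Q) (D := A) (η := ξ') hQ0
      (1 / 2 * W)]
    exact Ex_mono hQ0 fun S _ => by
      linarith [(rat_w hQ0 hQ1 hL hr hV hF0 hFV (f_good.1 A ξ' S hξ')).2]
  linarith

/-- **Ratio mixing with a rate**, the box. -/
theorem dec_w (hQ0 : 0 < Q) (hQ1 : Q ≤ 1) {α C : ℝ} (h : ArmDec Q α C) (hr : 1 ≤ r)
    (hrR : r ≤ R) (hV : V ⊆ Bq x r) (hF0 : ∀ ω, 0 ≤ F ω) (hFV : Loc V F) (hξ : Good ξ) :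
    (1 - C * ((r : ℝ) / R) ^ α) * Ex Q (Bq x R) ξ F ≤ Ex Q (Bq x R) (wir x R) F ∧
      (1 - C * ((r : ℝ) / R) ^ α) * Ex Q (Bq x R) (wir x R) F ≤ Ex Q (Bq x R) ξ F := by
  have hBB : Bq x r ⊆ Bq x R := by
    intro v hv
    rw [mem_Bq] at hv ⊢
    omega
  have h5 := h x r R (Bq x R) (wir x R) F hr hrR (good_wir _ _) sdiff_subset hF0
    (fun τ τ' h => hFV τ τ' fun v hv => h v fun h' => (Finset.mem_sdiff.1 h').2 (hV hv))
  have h6 := h x r R (Bq x R) (wir x R) (fun _ => 1) hr hrR (good_wir _ _) sdiff_subset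
    (fun _ => zero_le_one) (fun _ _ _ => rfl)
  rw [Ex_const hQ0, mul_one] at h6
  simp only [one_mul] at h6
  exact ⟨dn_w hQ0 hQ1 hrR (hV.trans hBB) subset_rfl hV hξ (fun v h h' => absurd h h') hF0 hFV h6,
    up_w hQ0 hQ1 hrR (hV.trans hBB) subset_rfl hV hξ (fun v h h' => absurd h h') hF0 hFV h5⟩

end Vale.Agent.P167.H635
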