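import Vale.Agent.P167.H635.Box
import Vale.Agent.P167.H635.Shape
import Vale.Agent.P167.FKA.Dual

/-!
# Ratio mixing at a free boundary of any shape, `q ≤ 1`

The only input is the bound `ArmAt` for the primal arms in the part of the annulus in the domain, the
rest of the annulus being closed.
-/

namespace Vale.Agent.P167.H635

open Finset Vale.Agent.P167.FK Vale.Agent.P167.FKA
open Vale.Agent.P145.FB (PStep PConn)
open Vale.Agent.P167.H259 (f_markov Ex_out)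
open Vale.Agent.P167.H519 (cf_in Sx Jn ind_le_of_imp Rat loc_mono)
open Vale.Agent.P167.H562.GL (near_of_corx far_of_corx)

variable {Q : ℝ} {x : ℤ × ℤ} {r r1 r2 R2 R1 R : ℤ} {A V D D' : Finset (ℤ × ℤ)} {ξ ξ1 η η' : Cfg}
  {F G : Cfg → ℝ} {p : ℝ}

theorem wi_up (hQ0 : 0 < Q) (hQ1 : Q ≤ 1) (hVA : V ⊆ A) (hξ : Good ξ) (hξ1 : Good ξ1)
    {𝓦 : Set (ℤ × ℤ)} (h : Wi A ξ ξ1 𝓦) (hF0 : ∀ ω, 0 ≤ F ω) (hF : Loc V F)
    (hp : Ex Q A ξ1 (fun ω => F ω * {ω | Jn 𝓦 V ω}.indicator 1 ω) ≤ p * Ex Q A ξ1 F) :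
    (1 - p) * Ex Q A ξ1 F ≤ Ex Q A ξ F := by
  have h := bil_w hQ0 hQ1 hVA hξ hξ1 h hF0 (G := fun _ => 1) (fun _ => zero_le_one) hF
    (fun _ _ _ => rfl)
  rw [Ex_const hQ0, Ex_const hQ0, mul_one, mul_one, sub_ind] at h
  linarith

theorem wi_dn (hQ0 : 0 < Q) (hQ1 : Q ≤ 1) (hVA : V ⊆ A) (hξ : Good ξ) (hξ1 : Good ξ1)
    {𝓦 : Set (ℤ × ℤ)} (h : Wi A ξ ξ1 𝓦) (hF0 : ∀ ω, 0 ≤ F ω) (hF : Loc V F)
    (hp : Pr Q A ξ1 {ω | Jn 𝓦 V ω} ≤ p) :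
    (1 - p) * Ex Q A ξ F ≤ Ex Q A ξ1 F := by
  have h := bil_w hQ0 hQ1 hVA hξ hξ1 h (F := fun _ => 1) (fun _ => zero_le_one) hF0
    (fun _ _ _ => rfl) hF
  rw [Ex_const hQ0, one_mul, sub_ind (fun _ => 1), Ex_const hQ0] at h
  simp only [one_mul] at h
  have h8 : 0 ≤ Ex Q A ξ F := Ex_nonneg hQ0 fun _ _ => hF0 _
  have h9 : Ex Q A ξ1 (fun ω => {ω | Jn 𝓦 V ω}.indicator 1 ω) ≤ p := hp
  nlinarith

theorem Cl.mono {B B' : Finset (ℤ × ℤ)} (h : Cl B A ξ) (hB : B' ⊆ B) : Cl B' A ξ :=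
  fun v hv => h v (hB hv)

/-- The trace of the domain. -/
theorem Cl.cf {B B' : Finset (ℤ × ℤ)} (h : Cl B A ξ) (hB : B' ⊆ B) {C : Finset (ℤ × ℤ)}
    (hC : A ∩ B' ⊆ C) (S : Finset (ℤ × ℤ)) : Cl B' C (FK.cf A ξ S) := by
  intro v hv hvC
  have hvA : v ∉ A := fun h' => hvC (hC (Finset.mem_inter.2 ⟨h', hv⟩))
  rw [cf_out hvA]
  exact h v (hB hv) hvA

/-- Full annuli. -/
theorem armAt_dec (hQ0 : 0 < Q) {α C : ℝ} (h : ArmDec Q α C) (hr : 1 ≤ r) (hrR : r ≤ R)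
    (hD : Ann x r R ⊆ D) : ArmAt Q x r R D (C * ((r : ℝ) / R) ^ α) := by
  intro η hη _
  rw [Finset.inter_eq_right.2 hD]
  have h6 := h x r R (Ann x r R) η (fun _ => 1) hr hrR hη subset_rfl
    (fun _ => zero_le_one) (fun _ _ _ => rfl)
  rw [Ex_const hQ0, mul_one] at h6
  simp only [one_mul] at h6
  exact h6

theorem armAt_rat (hQ0 : 0 < Q) {L : ℤ} (hL : Rat Q L) (hr : 1 ≤ r) (hrR : L * r ≤ R)
    (hD : Ann x r R ⊆ D) : ArmAt Q x r R D (1 / 2) := by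
  intro η hη _
  rw [Finset.inter_eq_right.2 hD]
  have h6 := (hL.2 x r R (Ann x r R) η (fun _ => 1) hr hrR hη subset_rfl
    (fun _ => zero_le_one) (fun _ _ _ => rfl)).1
  rw [Ex_const hQ0, mul_one] at h6
  simp only [one_mul] at h6
  exact h6

/-- The conditional form. -/
theorem ArmAt.ex (hQ0 : 0 < Q) (h : ArmAt Q x r R D p) (hη : Good η) (hcl : Cl (Ann x r R) D η)
    (hG0 : ∀ ω, 0 ≤ G ω) (hG : Ind (D ∩ Ann x r R) G) :
    Ex Q D η (fun ω => G ω * {ω | ArmPx x r R ω}.indicator 1 ω) ≤ p * Ex Q D η G := by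
  rw [markov f_markov hQ0 (A := D ∩ Ann x r R) Finset.inter_subset_left hη hG, ← Ex_mul_left]
  refine Ex_mono hQ0 fun S _ => ?_
  rw [mul_comm p]
  refine mul_le_mul_of_nonneg_left ?_ (hG0 _)
  refine h _ (f_good.1 D η S hη) fun v hv hvD => ?_
  rw [cf_out hvD]
  exact hcl v hv hvD

theorem ArmAt.pr (hQ0 : 0 < Q) (h : ArmAt Q x r R D p) (hη : Good η)
    (hcl : Cl (Ann x r R) D η) : Pr Q D η {ω | ArmPx x r R ω} ≤ p := by
  have h1 := h.ex hQ0 hη hcl (G := fun _ => 1) (fun _ => zero_le_one) fun _ _ _ => rfl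
  rw [Ex_const hQ0, mul_one] at h1
  simp only [one_mul] at h1
  exact h1

theorem ArmAt.nonneg (hQ0 : 0 < Q) (h : ArmAt Q x r R D p) : 0 ≤ p :=
  (Pr_nonneg hQ0 _).trans (h eta0 f_good.2.1 fun _ _ _ => rfl)

/-! ### A box -/

section box

theorem cl_wir : Cl (Bq x R) D (wir x R) := fun _ hv _ => wir_in hv

theorem bdy_up0 (hQ0 : 0 < Q) (hQ1 : Q ≤ 1) (hrR : r ≤ R) (hp : ArmAt Q x r R A p)
    (hA : A ⊆ Bq x R) (hVA : V ⊆ A) (hV : V ⊆ Bq x r) (hF0 : ∀ ω, 0 ≤ F ω) (hF : Loc V F)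
    (hξ : Good ξ) (hcl : Cl (Bq x R) A ξ) : (1 - p) * Ex Q A (wir x R) F ≤ Ex Q A ξ F := by
  refine up_w hQ0 hQ1 hrR hVA hA hV hξ hcl hF0 hF (hp.ex hQ0 (good_wir x R)
    (cl_wir.mono ann_box) hF0 fun ω ω' h => hF ω ω' fun v hv => h v fun h' => ?_)
  exact (Finset.mem_sdiff.1 (Finset.mem_inter.1 h').2).2 (hV hv)

theorem bdy_dn0 (hQ0 : 0 < Q) (hQ1 : Q ≤ 1) (hrR : r ≤ R) (hp : ArmAt Q x r R A p)
    (hA : A ⊆ Bq x R) (hVA : V ⊆ A) (hV : V ⊆ Bq x r) (hF0 : ∀ ω, 0 ≤ F ω) (hF : Loc V F)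
    (hξ : Good ξ) (hcl : Cl (Bq x R) A ξ) : (1 - p) * Ex Q A ξ F ≤ Ex Q A (wir x R) F :=
  dn_w hQ0 hQ1 hrR hVA hA hV hξ hcl hF0 hF (hp.pr hQ0 (good_wir x R) (cl_wir.mono ann_box))

/-- The reference value at the part of the domain in the box. -/
noncomputable def Wv (Q : ℝ) (x : ℤ × ℤ) (R : ℤ) (D : Finset (ℤ × ℤ)) (F : Cfg → ℝ) : ℝ :=
  Ex Q (D ∩ Bq x R) (wir x R) F

variable (hQ0 : 0 < Q) (hQ1 : Q ≤ 1) (hrR : r ≤ R) (hp : ArmAt Q x r R D p) (hVD : V ⊆ D)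
  (hV : V ⊆ Bq x r) (hF0 : ∀ ω, 0 ≤ F ω) (hF : Loc V F) (hη : Good η) (hcl : Cl (Bq x R) D η)

theorem trace_ann (D : Finset (ℤ × ℤ)) (hD : D ∩ Bq x R = D' ∩ Bq x R) :
    D ∩ Ann x r R = D' ∩ Ann x r R := by
  have h : ∀ D : Finset (ℤ × ℤ), D ∩ Ann x r R = (D ∩ Bq x R) \ Bq x r := fun D => by
    ext v
    simp only [Ann, Finset.mem_inter, Finset.mem_sdiff]
    tauto
  rw [h, h, hD]

theorem Wv_nonneg (hQ0 : 0 < Q) (hF0 : ∀ ω, 0 ≤ F ω) : 0 ≤ Wv Q x R D F :=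
  Ex_nonneg hQ0 fun _ _ => hF0 _

theorem sub_trace (hrR : r ≤ R) (hDD : D ∩ Bq x R = D' ∩ Bq x R) (hVD : V ⊆ D)
    (hV : V ⊆ Bq x r) : V ⊆ D' := fun v hv => by
  have h : v ∈ D ∩ Bq x R := Finset.mem_inter.2 ⟨hVD hv, bq_mono hrR (hV hv)⟩
  rw [hDD] at h
  exact (Finset.mem_inter.1 h).1

include hQ0 hQ1 hrR hp hVD hV hF0 hF

/-- The two comparisons for the domain `D ∩ Bq x R`. -/
theorem bdy_pt {ζ : Cfg} (hζ : Good ζ) (hcl : Cl (Bq x R) D ζ) :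
    (1 - p) * Ex Q (D ∩ Bq x R) ζ F ≤ Wv Q x R D F ∧
      (1 - p) * Wv Q x R D F ≤ Ex Q (D ∩ Bq x R) ζ F := by
  have hVA : V ⊆ D ∩ Bq x R := fun v hv =>
    Finset.mem_inter.2 ⟨hVD hv, bq_mono hrR (hV hv)⟩
  have hcl' : Cl (Bq x R) (D ∩ Bq x R) ζ := fun v hv hvA =>
    hcl v hv fun h => hvA (Finset.mem_inter.2 ⟨h, hv⟩)
  have hp' : ArmAt Q x r R (D ∩ Bq x R) p := hp.congr (trace_ann D (by
    rw [Finset.inter_assoc, Finset.inter_self]))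
  exact ⟨bdy_dn0 hQ0 hQ1 hrR hp' Finset.inter_subset_right hVA hV hF0 hF hζ hcl',
    bdy_up0 hQ0 hQ1 hrR hp' Finset.inter_subset_right hVA hV hF0 hF hζ hcl'⟩

include hη hcl

/-- **Ratio mixing** with a nonnegative function off the box. -/
theorem bdy_mul (hG0 : ∀ ω, 0 ≤ G ω) (hG : Ind (D ∩ Bq x R) G) :
    (1 - p) * Ex Q D η (fun ω => G ω * F ω) ≤ Ex Q D η G * Wv Q x R D F ∧
      (1 - p) * (Ex Q D η G * Wv Q x R D F) ≤ Ex Q D η (fun ω => G ω * F ω) := by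
  have h1 : ∀ S, _ := fun S => bdy_pt hQ0 hQ1 hrR hp hVD hV hF0 hF (ζ := cf D η S)
    (f_good.1 D η S hη) (fun v hv hvD => by rw [cf_out hvD]; exact hcl v hv hvD)
  rw [markov f_markov hQ0 (A := D ∩ Bq x R) Finset.inter_subset_left hη hG]
  constructor
  · have e : Ex Q D η G * Wv Q x R D F = Ex Q D η (fun ω => Wv Q x R D F * G ω) := by
      rw [Ex_mul_left]; ring
    rw [e, ← Ex_mul_left]
    refine Ex_mono hQ0 fun S _ => ?_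
    have := mul_le_mul_of_nonneg_right (h1 S).1 (hG0 (cf D η S))
    linarith
  · have e : (1 - p) * (Ex Q D η G * Wv Q x R D F) =
        Ex Q D η (fun ω => ((1 - p) * Wv Q x R D F) * G ω) := by
      rw [Ex_mul_left]; ring
    rw [e]
    refine Ex_mono hQ0 fun S _ => ?_
    have := mul_le_mul_of_nonneg_right (h1 S).2 (hG0 (cf D η S))
    linarith

/-- **Ratio mixing**: comparison with the reference value. -/
theorem bdy_all : (1 - p) * Ex Q D η F ≤ Wv Q x R D F ∧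
    (1 - p) * Wv Q x R D F ≤ Ex Q D η F := by
  have h := bdy_mul hQ0 hQ1 hrR hp hVD hV hF0 hF hη hcl (G := fun _ => 1)
    (fun _ => zero_le_one) fun _ _ _ => rfl
  rw [Ex_const hQ0, one_mul] at h
  simp only [one_mul] at h
  exact h

end box

theorem Wv_congr (h : D ∩ Bq x R = D' ∩ Bq x R) : Wv Q x R D F = Wv Q x R D' F := by
  rw [Wv, Wv, h]

section two

variable (hQ0 : 0 < Q) (hQ1 : Q ≤ 1) (hrR : r ≤ R) (hp : ArmAt Q x r R D p) (hp1 : p < 1)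
  (hDD : D ∩ Bq x R = D' ∩ Bq x R) (hVD : V ⊆ D)
  (hV : V ⊆ Bq x r) (hF0 : ∀ ω, 0 ≤ F ω) (hF : Loc V F) (hη : Good η) (hη' : Good η')
  (hcl : Cl (Bq x R) D η) (hcl' : Cl (Bq x R) D' η')

include hQ0 hQ1 hrR hp hp1 hDD hVD hV hF0 hF hη hη' hcl hcl'

/-- **Two domains** with the same trace on the box. -/
theorem bdy_two : (1 - p) ^ 2 * Ex Q D η F ≤ Ex Q D' η' F := by
  have hp' : ArmAt Q x r R D' p := hp.congr (trace_ann D hDD)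
  have hVD' := sub_trace hrR hDD hVD hV
  have h1 := (bdy_all hQ0 hQ1 hrR hp hVD hV hF0 hF hη hcl).1
  have h2 := (bdy_all hQ0 hQ1 hrR hp' hVD' hV hF0 hF hη' hcl').2
  rw [← Wv_congr hDD] at h2
  have h3 := mul_le_mul_of_nonneg_left h1 (by linarith : (0 : ℝ) ≤ 1 - p)
  nlinarith

/-- **Two domains**, with a function off the box. -/
theorem bdy_two_mul (hG0 : ∀ ω, 0 ≤ G ω) (hG : Ind (D ∩ Bq x R) G) :
    (1 - p) ^ 2 * Ex Q D η (fun ω => G ω * F ω) ≤ Ex Q D η G * Ex Q D' η' F ∧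
      (1 - p) ^ 2 * (Ex Q D η G * Ex Q D' η' F) ≤ Ex Q D η (fun ω => G ω * F ω) := by
  have hp' : ArmAt Q x r R D' p := hp.congr (trace_ann D hDD)
  have hVD' := sub_trace hrR hDD hVD hV
  have h1 := bdy_mul hQ0 hQ1 hrR hp hVD hV hF0 hF hη hcl hG0 hG
  have h2 := bdy_all hQ0 hQ1 hrR hp' hVD' hV hF0 hF hη' hcl'
  rw [← Wv_congr hDD] at h2
  have hg : 0 ≤ Ex Q D η G := Ex_nonneg hQ0 fun _ _ => hG0 _
  have hq : (0 : ℝ) ≤ 1 - p := by linarith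
  constructor
  · have h3 := mul_le_mul_of_nonneg_left h1.1 hq
    have h4 := mul_le_mul_of_nonneg_left h2.2 hg
    nlinarith
  · have h3 := mul_le_mul_of_nonneg_left h2.1 hg
    have h4 := mul_le_mul_of_nonneg_left h3 hq
    nlinarith [h1.2]

end two

end Vale.Agent.P167.H635
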