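import Vale.Agent.P167.H635.Bdy

/-!
# Ratio mixing in an annulus at a free boundary of any shape, `q ≤ 1`

Nothing is assumed inside of the box `r` and outside of the box `R`; the reference configuration is
open there and closed in the annulus.
-/

namespace Vale.Agent.P167.H635

open Finset Vale.Agent.P167.FK Vale.Agent.P167.FKA
open Vale.Agent.P145.FB (PStep PConn)
open Vale.Agent.P167.H259 (f_markov Ex_out)
open Vale.Agent.P167.H519 (cf_in Sx Jn ind_le_of_imp Rat loc_mono)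
open Vale.Agent.P167.H562.GL (near_of_corx far_of_corx)

variable {Q : ℝ} {x : ℤ × ℤ} {r r1 r2 R2 R1 R : ℤ} {A V D D' : Finset (ℤ × ℤ)} {ξ ξ1 η η' : Cfg}
  {F G : Cfg → ℝ} {p p1 p2 : ℝ}

/-- The even sites at distance at most `r` of `x`. -/
def near (x : ℤ × ℤ) (r : ℤ) : Set (ℤ × ℤ) := {s | Even (s.1 + s.2) ∧ nm (s - x) ≤ r}

theorem near_iff {s : ℤ × ℤ} : nm (s - x) ≤ r ↔
    x.1 - r ≤ s.1 ∧ s.1 ≤ x.1 + r ∧ x.2 - r ≤ s.2 ∧ s.2 ≤ x.2 + r := by
  simp only [nm, Prod.fst_sub, Prod.snd_sub, max_le_iff, abs_le]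
  omega

/-- The even sites of a box with open squares are connected. -/
theorem box_pc (hr : 1 ≤ r) {ω : Cfg} (hω : ∀ v ∈ Bq x r, ω v = true) : ∀ (n : ℕ) (s t : ℤ × ℤ),
    s ∈ near x r → t ∈ near x r → nm (s - t) ≤ n → PC ω s t := by
  intro n
  induction n with
  | zero =>
    rintro ⟨s1, s2⟩ ⟨t1, t2⟩ _ _ h
    rw [near_iff] at h
    simp only [Nat.cast_zero] at h
    have h1 : s1 = t1 := by omega
    have h2 : s2 = t2 := by omega
    subst h1 h2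
    exact Relation.ReflTransGen.refl
  | succ n ih =>
    rintro ⟨s1, s2⟩ ⟨t1, t2⟩ hs ht h
    by_cases hst : s1 = t1 ∧ s2 = t2
    · obtain ⟨rfl, rfl⟩ := hst
      exact Relation.ReflTransGen.refl
    have hs' := hs
    have ht' := ht
    simp only [near, Set.mem_ofPred_eq, near_iff, Int.even_iff] at hs ht
    rw [near_iff] at h
    simp only [Nat.cast_add, Nat.cast_one] at h
    obtain ⟨h1, h2, h3, h4, h5⟩ := hs
    obtain ⟨k1, k2, k3, k4, k5⟩ := ht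
    obtain ⟨u, hu1, hu2, hu3, hu4⟩ : ∃ u : ℤ × ℤ, (u.1 = s1 + 1 ∨ u.1 = s1 - 1) ∧
        (u.2 = s2 + 1 ∨ u.2 = s2 - 1) ∧ u ∈ near x r ∧ nm (u - (t1, t2)) ≤ n := by
      have key : ∀ a b : ℤ, (a = s1 + 1 ∨ a = s1 - 1) → (b = s2 + 1 ∨ b = s2 - 1) →
          (x.1 - r ≤ a ∧ a ≤ x.1 + r ∧ x.2 - r ≤ b ∧ b ≤ x.2 + r) →
          (t1 - n ≤ a ∧ a ≤ t1 + n ∧ t2 - n ≤ b ∧ b ≤ t2 + n) →
          ∃ u : ℤ × ℤ, (u.1 = s1 + 1 ∨ u.1 = s1 - 1) ∧
            (u.2 = s2 + 1 ∨ u.2 = s2 - 1) ∧ u ∈ near x r ∧ nm (u - (t1, t2)) ≤ n := by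
        intro a b ha hb h6 h7
        refine ⟨(a, b), ha, hb, ?_, ?_⟩
        · simp only [near, Set.mem_ofPred_eq, near_iff, Int.even_iff]
          exact ⟨by omega, h6⟩
        · rw [near_iff]
          exact h7
      rcases lt_trichotomy s1 t1 with e1 | e1 | e1 <;> rcases lt_trichotomy s2 t2 with e2 | e2 | e2
      · exact key (s1 + 1) (s2 + 1) (by omega) (by omega) (by omega) (by omega)
      · by_cases e3 : s2 + 1 ≤ x.2 + r
        · exact key (s1 + 1) (s2 + 1) (by omega) (by omega) (by omega) (by omega)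
        · exact key (s1 + 1) (s2 - 1) (by omega) (by omega) (by omega) (by omega)
      · exact key (s1 + 1) (s2 - 1) (by omega) (by omega) (by omega) (by omega)
      · by_cases e3 : s1 + 1 ≤ x.1 + r
        · exact key (s1 + 1) (s2 + 1) (by omega) (by omega) (by omega) (by omega)
        · exact key (s1 - 1) (s2 + 1) (by omega) (by omega) (by omega) (by omega)
      · exact absurd ⟨e1, e2⟩ hst
      · by_cases e3 : s1 + 1 ≤ x.1 + r
        · exact key (s1 + 1) (s2 - 1) (by omega) (by omega) (by omega) (by omega)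
        · exact key (s1 - 1) (s2 - 1) (by omega) (by omega) (by omega) (by omega)
      · exact key (s1 - 1) (s2 + 1) (by omega) (by omega) (by omega) (by omega)
      · by_cases e3 : s2 + 1 ≤ x.2 + r
        · exact key (s1 - 1) (s2 + 1) (by omega) (by omega) (by omega) (by omega)
        · exact key (s1 - 1) (s2 - 1) (by omega) (by omega) (by omega) (by omega)
      · exact key (s1 - 1) (s2 - 1) (by omega) (by omega) (by omega) (by omega)
    refine Relation.ReflTransGen.head ?_ (ih u (t1, t2) hu3 ht' hu4)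
    refine ⟨hu1, hu2, hω _ ?_⟩
    have hu5 := hu3.2
    rw [near_iff] at hu5
    rw [mem_Bq]
    dsimp only
    omega

/-- Open outside of the box `R`, `ξ` in the box. -/
noncomputable def op1 (x : ℤ × ℤ) (R : ℤ) (ξ : Cfg) : Cfg :=
  cf (Bq x R) eta1 ((Bq x R).filter fun v => ξ v = true)

theorem good_op1 (x : ℤ × ℤ) (R : ℤ) (ξ : Cfg) : Good (op1 x R ξ) := f_good.1 _ _ _ f_good.2.2

theorem op1_in {v : ℤ × ℤ} (h : v ∈ Bq x R) : op1 x R ξ v = ξ v := by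
  rw [op1, cf_in h]
  simp [h]

theorem op1_out {v : ℤ × ℤ} (h : v ∉ Bq x R) : op1 x R ξ v = true := by
  rw [op1, cf_out h]
  rfl

/-- Open outside of the annulus, closed in the annulus. -/
noncomputable def wira (x : ℤ × ℤ) (r R : ℤ) : Cfg := cf (Ann x r R) eta1 ∅

theorem good_wira (x : ℤ × ℤ) (r R : ℤ) : Good (wira x r R) := f_good.1 _ _ _ f_good.2.2

theorem wira_in {v : ℤ × ℤ} (h : v ∈ Ann x r R) : wira x r R v = false := by
  rw [wira, cf_in h]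
  simp

theorem wira_out {v : ℤ × ℤ} (h : v ∉ Ann x r R) : wira x r R v = true := by
  rw [wira, cf_out h]
  rfl

theorem cl_wira : Cl (Ann x r R) D (wira x r R) := fun _ hv _ => wira_in hv

/-- The first step: the outside. -/
theorem wi_out (hA : A ⊆ Ann x r R) : Wi A ξ (op1 x R ξ) (far x R) where
  le v hv hξ := by
    by_cases h : v ∈ Bq x R
    · rw [op1_in h, hξ]
    · exact op1_out h
  new v hv h0 h1 := by
    have hvB : v ∉ Bq x R := fun h => by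
      rw [op1_in h, h0] at h1
      simp at h1
    exact ⟨⟨H519.pa_even v, far_of_corx hvB (H519.pa_cor v)⟩,
      H519.pb_even v, far_of_corx hvB (H519.pb_cor v)⟩
  con s hs t ht := by
    refine outside_conn (a := x.1 - R) (b := x.1 + R - 1) (c := x.2 - R) (d := x.2 + R - 1)
      (fun v hv => ?_) hs.1 ht.1 ?_ ?_
    · show cf A (op1 x R ξ) ∅ v = true
      have hvB : v ∉ Bq x R := fun h => by
        rw [mem_Bq] at h
        omega
      rw [cf_out fun h => hvB (mem_Ann.1 (hA h)).1, op1_out hvB]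
    · have := far_iff.1 hs.2
      omega
    · have := far_iff.1 ht.2
      omega

/-- The second step: the inside. -/
theorem wi_in (hr : 1 ≤ r) (hA : A ⊆ Ann x r R) (hcl : Cl (Ann x r R) A ξ) :
    Wi A (op1 x R ξ) (wira x r R) (near x r) where
  le v hv hξ := by
    refine wira_out fun h => ?_
    rw [op1_in (mem_Ann.1 h).1, hcl v h hv] at hξ
    simp at hξ
  new v hv h0 h1 := by
    have hvB : v ∉ Ann x r R := fun h => by
      rw [wira_in h] at h1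
      simp at h1
    have hvR : v ∈ Bq x R := by
      by_contra h
      rw [op1_out h] at h0
      simp at h0
    have hvr : v ∈ Bq x r := by
      by_contra h
      exact hvB (mem_Ann.2 ⟨hvR, h⟩)
    exact ⟨⟨H519.pa_even v, near_of_corx hvr (H519.pa_cor v)⟩,
      H519.pb_even v, near_of_corx hvr (H519.pb_cor v)⟩
  con s hs t ht := by
    refine box_pc hr (fun v hv => ?_) (nm (s - t)).toNat s t hs ht (Int.self_le_toNat _)
    rw [cf_out fun h => (mem_Ann.1 (hA h)).2 hv]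
    exact wira_out fun h => (mem_Ann.1 h).2 hv

theorem arm_far (h2 : R1 ≤ R) (hV : V ⊆ Bq x R1) {ω : Cfg} (h : Jn (far x R) V ω) :
    ArmPx x R1 R ω := by
  obtain ⟨s, hs, u, ⟨w, hw, hwu⟩, hsu⟩ := h
  rw [armPx_iff h2]
  refine ⟨u, s, ?_, near_of_corx (hV hw) hwu, hs.2, H519.conn_symm hsu⟩
  have := rtg_parity hsu
  have := hs.1
  rw [Int.even_iff] at *
  omega

theorem arm_near (h1 : r ≤ r1) (hV : ∀ v ∈ V, v ∉ Bq x r1) {ω : Cfg} (h : Jn (near x r) V ω) :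
    ArmPx x r r1 ω := by
  obtain ⟨s, hs, u, ⟨w, hw, hwu⟩, hsu⟩ := h
  rw [armPx_iff h1]
  exact ⟨s, u, hs.1, hs.2, far_of_corx (hV w hw) hwu, hsu⟩

section ann

variable (hQ0 : 0 < Q) (hQ1 : Q ≤ 1) (hr : 1 ≤ r) (h1 : r ≤ r1) (h12 : r1 ≤ R1) (h2 : R1 ≤ R)
  (hp1 : ArmAt Q x r r1 A p1) (hp2 : ArmAt Q x R1 R A p2) (hA : A ⊆ Ann x r R)
  (hVA : V ⊆ A) (hV : V ⊆ Ann x r1 R1) (hF0 : ∀ ω, 0 ≤ F ω) (hF : Loc V F) (hξ : Good ξ)
  (hcl : Cl (Ann x r R) A ξ)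

include hQ0 hQ1 hr h1 h12 h2 hp1 hp2 hA hVA hV hF0 hF hξ hcl

theorem ann_aux : ((1 - p2) * Ex Q A (op1 x R ξ) F ≤ Ex Q A ξ F ∧
      (1 - p2) * Ex Q A ξ F ≤ Ex Q A (op1 x R ξ) F) ∧
    ((1 - p1) * Ex Q A (wira x r R) F ≤ Ex Q A (op1 x R ξ) F ∧
      (1 - p1) * Ex Q A (op1 x R ξ) F ≤ Ex Q A (wira x r R) F) := by
  have hVR : V ⊆ Bq x R1 := fun v hv => (mem_Ann.1 (hV hv)).1
  have hVr : ∀ v ∈ V, v ∉ Bq x r1 := fun v hv => (mem_Ann.1 (hV hv)).2
  have c1 : Cl (Ann x r R) A (op1 x R ξ) := fun v hv hvA => by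
    rw [op1_in (mem_Ann.1 hv).1]
    exact hcl v hv hvA
  have i2 : Ind (A ∩ Ann x R1 R) F := fun ω ω' h => hF ω ω' fun v hv => h v fun h' =>
    (mem_Ann.1 (Finset.mem_inter.1 h').2).2 (hVR hv)
  have i1 : Ind (A ∩ Ann x r r1) F := fun ω ω' h => hF ω ω' fun v hv => h v fun h' =>
    hVr v hv (mem_Ann.1 (Finset.mem_inter.1 h').2).1
  have mul : ∀ {ζ : Cfg} {𝓦 : Set (ℤ × ℤ)} {B : Set Cfg} {G : Cfg → ℝ}, (∀ ω, 0 ≤ G ω) →
      (∀ ω, Jn 𝓦 V ω → ω ∈ B) → Ex Q A ζ (fun ω => G ω * {ω | Jn 𝓦 V ω}.indicator 1 ω) ≤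
        Ex Q A ζ (fun ω => G ω * B.indicator 1 ω) := by
    intro ζ 𝓦 B G hG0 h
    refine Ex_mono hQ0 fun S _ => mul_le_mul_of_nonneg_left ?_ (hG0 _)
    by_cases h3 : cf A ζ S ∈ {ω | Jn 𝓦 V ω}
    · rw [Set.indicator_of_mem h3, Set.indicator_of_mem (h _ h3)]
    · rw [Set.indicator_of_notMem h3]
      exact ind_nonneg _ _
  have one : ∀ ζ, Ex Q A ζ (fun _ => (1 : ℝ)) = 1 := fun ζ => Ex_const hQ0 1
  have f1 : ∀ ω : Cfg, (0 : ℝ) ≤ (fun _ => (1 : ℝ)) ω := fun _ => zero_le_one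
  refine ⟨⟨?_, ?_⟩, ?_, ?_⟩
  · exact wi_up hQ0 hQ1 hVA hξ (good_op1 x R ξ) (wi_out hA) hF0 hF ((mul hF0 fun ω h =>
      arm_far h2 hVR h).trans (hp2.ex hQ0 (good_op1 x R ξ) (c1.mono (ann_mono (h1.trans h12) le_rfl))
        hF0 i2))
  · refine wi_dn hQ0 hQ1 hVA hξ (good_op1 x R ξ) (wi_out hA) hF0 hF ?_
    have k := (mul (ζ := op1 x R ξ) f1 fun ω h => arm_far h2 hVR h).trans (hp2.ex hQ0
      (good_op1 x R ξ) (c1.mono (ann_mono (h1.trans h12) le_rfl)) f1 fun _ _ _ => rfl)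
    rw [one, mul_one] at k
    simp only [one_mul] at k
    exact k
  · exact wi_up hQ0 hQ1 hVA (good_op1 x R ξ) (good_wira x r R) (wi_in hr
      hA hcl) hF0 hF ((mul hF0 fun ω h => arm_near h1 hVr h).trans (hp1.ex hQ0 (good_wira x r R)
        (cl_wira.mono (ann_mono le_rfl (h12.trans h2))) hF0 i1))
  · refine wi_dn hQ0 hQ1 hVA (good_op1 x R ξ) (good_wira x r R) (wi_in hr
      hA hcl) hF0 hF ?_
    have k := (mul (ζ := wira x r R) f1 fun ω h => arm_near h1 hVr h).trans (hp1.ex hQ0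
      (good_wira x r R) (cl_wira.mono (ann_mono le_rfl (h12.trans h2))) f1 fun _ _ _ => rfl)
    rw [one, mul_one] at k
    simp only [one_mul] at k
    exact k

/-- **The comparison in an annulus.** -/
theorem ann_pt (hp1' : p1 ≤ 1) (hp2' : p2 ≤ 1) :
    (1 - p1) * (1 - p2) * Ex Q A ξ F ≤ Ex Q A (wira x r R) F ∧
      (1 - p1) * (1 - p2) * Ex Q A (wira x r R) F ≤ Ex Q A ξ F := by
  obtain ⟨⟨k1, k2⟩, k3, k4⟩ := ann_aux hQ0 hQ1 hr h1 h12 h2 hp1 hp2 hA hVA hV hF0 hF hξ hcl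
  have j1 := mul_le_mul_of_nonneg_left k2 (by linarith : (0 : ℝ) ≤ 1 - p1)
  have j2 := mul_le_mul_of_nonneg_left k3 (by linarith : (0 : ℝ) ≤ 1 - p2)
  constructor
  · linarith
  · linarith

end ann

/-- The reference value at the part of the domain in the annulus. -/
noncomputable def Wa (Q : ℝ) (x : ℤ × ℤ) (r R : ℤ) (D : Finset (ℤ × ℤ)) (F : Cfg → ℝ) : ℝ :=
  Ex Q (D ∩ Ann x r R) (wira x r R) F

theorem Wa_nonneg (hQ0 : 0 < Q) (hF0 : ∀ ω, 0 ≤ F ω) : 0 ≤ Wa Q x r R D F :=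
  Ex_nonneg hQ0 fun _ _ => hF0 _

theorem Wa_congr (h : D ∩ Ann x r R = D' ∩ Ann x r R) : Wa Q x r R D F = Wa Q x r R D' F := by
  rw [Wa, Wa, h]

theorem ArmAt.trace (h : ArmAt Q x r1 R1 D p) (h1 : r ≤ r1) (h2 : R1 ≤ R)
    (hD : D ∩ Ann x r R = D' ∩ Ann x r R) : ArmAt Q x r1 R1 D' p := by
  refine h.congr ?_
  have e : ∀ D : Finset (ℤ × ℤ), D ∩ Ann x r1 R1 = (D ∩ Ann x r R) ∩ Ann x r1 R1 := fun D => by
    rw [Finset.inter_assoc, Finset.inter_eq_right.2 (ann_mono h1 h2)]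
  rw [e D, e D', hD]

section dom

variable (hQ0 : 0 < Q) (hQ1 : Q ≤ 1) (hr : 1 ≤ r) (h1 : r ≤ r1) (h12 : r1 ≤ R1) (h2 : R1 ≤ R)
  (hp1 : ArmAt Q x r r1 D p1) (hp2 : ArmAt Q x R1 R D p2) (hp1' : p1 ≤ 1) (hp2' : p2 ≤ 1)
  (hVD : V ⊆ D) (hV : V ⊆ Ann x r1 R1) (hF0 : ∀ ω, 0 ≤ F ω) (hF : Loc V F) (hη : Good η)
  (hcl : Cl (Ann x r R) D η)

include hQ0 hQ1 hr h1 h12 h2 hp1 hp2 hp1' hp2' hVD hV hF0 hF hη hcl

/-- **Ratio mixing in an annulus**, with a function off the annulus. -/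
theorem ann_mul (hG0 : ∀ ω, 0 ≤ G ω) (hG : Ind (D ∩ Ann x r R) G) :
    (1 - p1) * (1 - p2) * Ex Q D η (fun ω => G ω * F ω) ≤ Ex Q D η G * Wa Q x r R D F ∧
      (1 - p1) * (1 - p2) * (Ex Q D η G * Wa Q x r R D F) ≤ Ex Q D η (fun ω => G ω * F ω) := by
  have hVA : V ⊆ D ∩ Ann x r R := fun v hv =>
    Finset.mem_inter.2 ⟨hVD hv, ann_mono h1 h2 (hV hv)⟩
  have hDD : D ∩ Ann x r R = (D ∩ Ann x r R) ∩ Ann x r R := by
    rw [Finset.inter_assoc, Finset.inter_self]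
  have hp1a := hp1.trace le_rfl (h12.trans h2) hDD
  have hp2a := hp2.trace (h1.trans h12) le_rfl hDD
  have hpt : ∀ S, _ := fun S => ann_pt hQ0 hQ1 hr h1 h12 h2 hp1a hp2a
    Finset.inter_subset_right hVA hV hF0 hF (f_good.1 D η S hη)
    (fun v hv hvA => by
      have hvD : v ∉ D := fun h => hvA (Finset.mem_inter.2 ⟨h, hv⟩)
      rw [cf_out hvD]
      exact hcl v hv hvD) hp1' hp2'
  set c := (1 - p1) * (1 - p2) with hc
  rw [markov f_markov hQ0 (A := D ∩ Ann x r R) Finset.inter_subset_left hη hG]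
  constructor
  · have e : Ex Q D η G * Wa Q x r R D F = Ex Q D η (fun ω => Wa Q x r R D F * G ω) := by
      rw [Ex_mul_left]; ring
    rw [e, ← Ex_mul_left]
    refine Ex_mono hQ0 fun S _ => ?_
    have := mul_le_mul_of_nonneg_right (hpt S).1 (hG0 (cf D η S))
    have e2 : Wa Q x r R D F = Ex Q (D ∩ Ann x r R) (wira x r R) F := rfl
    rw [e2]
    linarith
  · have e : c * (Ex Q D η G * Wa Q x r R D F) =
        Ex Q D η (fun ω => (c * Wa Q x r R D F) * G ω) := by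
      rw [Ex_mul_left]; ring
    rw [e]
    refine Ex_mono hQ0 fun S _ => ?_
    have := mul_le_mul_of_nonneg_right (hpt S).2 (hG0 (cf D η S))
    have e2 : Wa Q x r R D F = Ex Q (D ∩ Ann x r R) (wira x r R) F := rfl
    rw [e2]
    linarith

theorem ann_all : (1 - p1) * (1 - p2) * Ex Q D η F ≤ Wa Q x r R D F ∧
    (1 - p1) * (1 - p2) * Wa Q x r R D F ≤ Ex Q D η F := by
  have h := ann_mul hQ0 hQ1 hr h1 h12 h2 hp1 hp2 hp1' hp2' hVD hV hF0 hF hη hcl (G := fun _ => 1)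
    (fun _ => zero_le_one) fun _ _ _ => rfl
  rw [Ex_const hQ0, one_mul] at h
  simp only [one_mul] at h
  exact h

/-- **Two domains** with the same trace on the annulus. -/
theorem ann_two (hη' : Good η') (hcl' : Cl (Ann x r R) D' η')
    (hDD : D ∩ Ann x r R = D' ∩ Ann x r R) :
    ((1 - p1) * (1 - p2)) ^ 2 * Ex Q D η F ≤ Ex Q D' η' F := by
  have hp1a := hp1.trace le_rfl (h12.trans h2) hDD
  have hp2a := hp2.trace (h1.trans h12) le_rfl hDD
  have hVD' : V ⊆ D' := fun v hv => by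
    have h : v ∈ D ∩ Ann x r R :=
      Finset.mem_inter.2 ⟨hVD hv, ann_mono h1 h2 (hV hv)⟩
    rw [hDD] at h
    exact (Finset.mem_inter.1 h).1
  have k1 := (ann_all hQ0 hQ1 hr h1 h12 h2 hp1 hp2 hp1' hp2' hVD hV hF0 hF hη hcl).1
  have k2 := (ann_all hQ0 hQ1 hr h1 h12 h2 hp1a hp2a hp1' hp2' hVD' hV hF0 hF hη' hcl').2
  rw [← Wa_congr hDD] at k2
  have k3 := mul_le_mul_of_nonneg_left k1
    (mul_nonneg (by linarith) (by linarith) : (0 : ℝ) ≤ (1 - p1) * (1 - p2))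
  nlinarith

end dom

end Vale.Agent.P167.H635
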