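import Vale.Agent.P167.H635.Star
import Vale.Agent.P167.H519.GMono
import Vale.Agent.P167.H519.NoLoop

/-!
# The loop model in a finite set of squares as a random-cluster model on a finite multigraph

Vertices: the primal corners of the squares of `A`; edges: the squares of `A`; the boundary
condition is the partition `rho A ξ` of the vertices induced by the open squares of `ξ` outside of
`A`. The edge weight is `Q`, the cluster weight `Q ^ 2`.
-/

namespace Vale.Agent.P167.H635

open Finset Vale.Agent.P167.H623 Vale.Agent.P167.H661 Vale.Agent.P167.FK Vale.Agent.P167.FKA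
open Vale.Agent.P145.FB (PStep PConn)
open Vale.Agent.P167.H259 (PC_mono cf_insert flip_cf cf_mono)
open Vale.Agent.P167.H519 (pa_cor pb_cor pa_even pb_even pc_of_cor cf_in)

set_option linter.unusedSectionVars false

theorem cor_pab {v z : ℤ × ℤ} (h : Cor v z) (hz : Even (z.1 + z.2)) :
    z = FK.pa v ∨ z = FK.pb v := by
  unfold FK.pa FK.pb
  obtain ⟨h1, h2⟩ := h
  by_cases hv : Even (v.1 + v.2)
  · rw [if_pos hv, if_pos hv]
    rw [Int.even_iff] at hv hz
    rcases h1 with h1 | h1 <;> rcases h2 with h2 | h2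
    · exact Or.inl (Prod.ext h1 h2)
    · omega
    · omega
    · exact Or.inr (Prod.ext h1 h2)
  · rw [if_neg hv, if_neg hv]
    rw [Int.even_iff] at hv hz
    rcases h1 with h1 | h1 <;> rcases h2 with h2 | h2
    · omega
    · exact Or.inl (Prod.ext h1 h2)
    · exact Or.inr (Prod.ext h1 h2)
    · omega

theorem PC_refl (ω : Cfg) (s : ℤ × ℤ) : PC ω s s := Relation.ReflTransGen.refl

theorem PC_symm {ω : Cfg} {s t : ℤ × ℤ} (h : PC ω s t) : PC ω t s := H519.conn_symm h

theorem PC_trans {ω : Cfg} {s t u : ℤ × ℤ} (h : PC ω s t) (h' : PC ω t u) : PC ω s u :=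
  Relation.ReflTransGen.trans h h'

section model

variable (A : Finset (ℤ × ℤ))

/-- The primal corners of the squares of `A`. -/
def corn : Finset (ℤ × ℤ) := A.image FK.pa ∪ A.image FK.pb

theorem pa_corn {v : ℤ × ℤ} (h : v ∈ A) : FK.pa v ∈ corn A :=
  mem_union_left _ (mem_image_of_mem _ h)

theorem pb_corn {v : ℤ × ℤ} (h : v ∈ A) : FK.pb v ∈ corn A :=
  mem_union_right _ (mem_image_of_mem _ h)

theorem corn_even {s : ℤ × ℤ} (h : s ∈ corn A) : Even (s.1 + s.2) := by
  rw [corn, mem_union, mem_image, mem_image] at h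
  rcases h with ⟨v, -, rfl⟩ | ⟨v, -, rfl⟩
  · exact pa_even v
  · exact pb_even v

theorem mem_corn_of_cor {v z : ℤ × ℤ} (hv : v ∈ A) (h : Cor v z) (hz : Even (z.1 + z.2)) :
    z ∈ corn A := by
  rcases cor_pab h hz with rfl | rfl
  · exact pa_corn A hv
  · exact pb_corn A hv

/-- The first end of an edge. -/
def ea (e : {v // v ∈ A}) : {s // s ∈ corn A} := ⟨FK.pa e.1, pa_corn A e.2⟩

/-- The second end of an edge. -/
def eb (e : {v // v ∈ A}) : {s // s ∈ corn A} := ⟨FK.pb e.1, pb_corn A e.2⟩

/-- The boundary condition. -/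
def rho (ξ : Cfg) : Setoid {s // s ∈ corn A} where
  r s t := PC (cf A ξ ∅) s.1 t.1
  iseqv := ⟨fun _ => PC_refl _ _, fun h => PC_symm h, fun h h' => PC_trans h h'⟩

theorem rho_iff (ξ : Cfg) (s t : {s // s ∈ corn A}) :
    rho A ξ s t ↔ PC (cf A ξ ∅) s.1 t.1 := Iff.rfl

/-- The open squares. -/
def up (S : Finset {v // v ∈ A}) : Finset (ℤ × ℤ) := S.map (Function.Embedding.subtype _)

theorem mem_up {S : Finset {v // v ∈ A}} {v : ℤ × ℤ} :
    v ∈ up A S ↔ ∃ h : v ∈ A, (⟨v, h⟩ : {v // v ∈ A}) ∈ S := by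
  simp [up]

theorem up_sub (S : Finset {v // v ∈ A}) : up A S ⊆ A := fun _ hv => (mem_up A |>.1 hv).1

theorem up_insert (e : {v // v ∈ A}) (S : Finset {v // v ∈ A}) :
    up A (insert e S) = insert e.1 (up A S) := by
  rw [up, up, map_insert]
  rfl

/-- Connections of the two models. -/
theorem con_iff (ξ : Cfg) (S : Finset {v // v ∈ A}) (s t : {s // s ∈ corn A}) :
    (conf (ea A) (eb A) S ⊔ rho A ξ) s t ↔ PC (cf A ξ (up A S)) s.1 t.1 := by
  constructor
  · intro h
    let R : Setoid {s // s ∈ corn A} := ⟨fun s t => PC (cf A ξ (up A S)) s.1 t.1,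
      fun _ => PC_refl _ _, fun h => PC_symm h, fun h h' => PC_trans h h'⟩
    have hle : conf (ea A) (eb A) S ⊔ rho A ξ ≤ R := by
      refine sup_le ((conf_le_iff _ _).2 fun e he => ?_) fun u v huv => ?_
      · show PC (cf A ξ (up A S)) (FK.pa e.1) (FK.pb e.1)
        refine pc_of_cor (v := e.1) ?_ (pa_cor _) (pb_cor _) (pa_even _) (pb_even _)
        rw [cf_in e.2, decide_eq_true_iff, mem_up]
        exact ⟨e.2, he⟩
      · exact PC_mono (cf_mono (empty_subset _)) huv
    exact hle h
  · intro h
    have key : ∀ u : ℤ × ℤ, PC (cf A ξ (up A S)) s.1 u →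
        ∃ s' : {s // s ∈ corn A}, (conf (ea A) (eb A) S ⊔ rho A ξ) s s' ∧
          PC (cf A ξ ∅) s'.1 u := by
      intro u hu
      unfold PC at hu
      induction hu with
      | refl => exact ⟨s, Setoid.refl' _ _, PC_refl _ _⟩
      | @tail y z hsy hyz ih =>
        obtain ⟨s', h1, h2⟩ := ih
        have hcz := cor_of_step hyz
        have hm : cf A ξ (up A S) (min y.1 z.1, min y.2 z.2) = true := hyz.2.2
        have hye : Even (y.1 + y.2) := by
          have h3 := rtg_parity (show Relation.ReflTransGen (PStep (op (cf A ξ (up A S)))) s.1 y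
            from hsy)
          have h4 := corn_even A s.2
          rw [Int.even_iff] at *
          omega
        have hze : Even (z.1 + z.2) := (FKA.even_step hyz).1 hye
        set v := (min y.1 z.1, min y.2 z.2) with hv
        by_cases hvA : v ∈ A
        · rw [cf_in hvA, decide_eq_true_iff, mem_up] at hm
          obtain ⟨_, hvS⟩ := hm
          have hy' : y ∈ corn A := mem_corn_of_cor A hvA hcz.1 hye
          have hz' : z ∈ corn A := mem_corn_of_cor A hvA hcz.2 hze
          have h5 : (conf (ea A) (eb A) S ⊔ rho A ξ) s' ⟨y, hy'⟩ :=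
            (le_sup_right : rho A ξ ≤ conf (ea A) (eb A) S ⊔ rho A ξ) h2
          have h6 : (conf (ea A) (eb A) S) ⟨y, hy'⟩ ⟨z, hz'⟩ := by
            have h7 := conf_edge (ea A) (eb A) hvS
            have e1 : ∀ x : ℤ × ℤ, ∀ hx : x ∈ corn A, Cor v x → Even (x.1 + x.2) →
                conf (ea A) (eb A) S (ea A ⟨v, hvA⟩) ⟨x, hx⟩ := by
              intro x hx hc he
              rcases cor_pab hc he with h8 | h8
              · have : (⟨x, hx⟩ : {s // s ∈ corn A}) = ea A ⟨v, hvA⟩ := Subtype.ext h8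
                rw [this]
              · have : (⟨x, hx⟩ : {s // s ∈ corn A}) = eb A ⟨v, hvA⟩ := Subtype.ext h8
                rw [this]
                exact h7
            exact Setoid.trans' _ (Setoid.symm' _ (e1 y hy' hcz.1 hye)) (e1 z hz' hcz.2 hze)
          refine ⟨⟨z, hz'⟩, Setoid.trans' _ h1 (Setoid.trans' _ h5
            ((le_sup_left : conf (ea A) (eb A) S ≤ conf (ea A) (eb A) S ⊔ rho A ξ) h6)),
            PC_refl _ _⟩
        · refine ⟨s', h1, h2.tail ⟨hyz.1, hyz.2.1, ?_⟩⟩
          show cf A ξ ∅ v = true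
          rw [cf_out hvA] at hm ⊢
          exact hm
    obtain ⟨s', h1, h2⟩ := key t.1 h
    exact Setoid.trans' _ h1 ((le_sup_right : rho A ξ ≤ conf (ea A) (eb A) S ⊔ rho A ξ) h2)

theorem card_join {V : Type*} [Fintype V] [DecidableEq V] (P : Setoid V) (x y : V) :
    (P x y → (classes (P ⊔ join x y)).card = (classes P).card) ∧
    (¬ P x y → (classes (P ⊔ join x y)).card + 1 = (classes P).card) := by
  constructor
  · intro h
    have : P ⊔ join x y = P := sup_eq_left.2 (join_le_iff.2 h)
    rw [this]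
  · intro h
    have hne : cls P y ≠ cls P x := fun k => h (cls_eq_iff.1 k.symm)
    have h2 : cls P x ∪ cls P y ∉ ((classes P).erase (cls P x)).erase (cls P y) := by
      intro k
      rw [mem_erase, mem_erase, mem_classes] at k
      obtain ⟨-, -, u, hu⟩ := k
      have hx : P u x := mem_cls.1 (hu ▸ mem_union_left _ (self_mem_cls P x))
      have hy : P u y := mem_cls.1 (hu ▸ mem_union_right _ (self_mem_cls P y))
      exact h (P.trans (P.symm hx) hy)
    rw [classes_sup_join, card_insert_of_notMem h2, card_erase_of_mem (mem_erase.2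
      ⟨hne, cls_mem P y⟩), card_erase_of_mem (cls_mem P x)]
    have h3 : 1 < (classes P).card := by
      rw [one_lt_card]
      exact ⟨_, cls_mem P x, _, cls_mem P y, hne.symm⟩
    omega

/-- The number of the loops in terms of the number of the clusters. -/
theorem ld_eq {ξ : Cfg} (hξ : Good ξ) (S : Finset {v // v ∈ A}) :
    LD A (cf A ξ (up A S)) + 2 * (classes (conf (ea A) (eb A) ∅ ⊔ rho A ξ)).card =
      LD A (cf A ξ ∅) + S.card + 2 * (classes (conf (ea A) (eb A) S ⊔ rho A ξ)).card := by
  classical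
  induction S using Finset.induction_on with
  | empty =>
    have : up A ∅ = ∅ := by rw [up, map_empty]
    rw [this, card_empty]
    omega
  | insert e S he ih =>
    have heS : e.1 ∉ up A S := by
      rw [mem_up]
      rintro ⟨_, h⟩
      exact he h
    have h1 := flip_cf f_flip f_good hξ e.2 heS
    have h2 : conf (ea A) (eb A) (insert e S) ⊔ rho A ξ =
        (conf (ea A) (eb A) S ⊔ rho A ξ) ⊔ join (ea A e) (eb A e) := by
      rw [conf_insert, sup_comm (join (ea A e) (eb A e)), sup_right_comm]
    have h3 := card_join (conf (ea A) (eb A) S ⊔ rho A ξ) (ea A e) (eb A e)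
    rw [con_iff A ξ S (ea A e) (eb A e)] at h3
    rw [up_insert, h2, card_insert_of_notMem he]
    by_cases hp : PC (cf A ξ (up A S)) (FK.pa e.1) (FK.pb e.1)
    · have h4 := h1.1 hp
      have h5 := h3.1 hp
      omega
    · have h4 := h1.2 hp
      have h5 := h3.2 hp
      omega

end model

end Vale.Agent.P167.H635
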