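import Vale.Agent.P167.H661.Full

/-!
# Decoupling of two wired sets, `q ≤ 1`

`P^W(T is not joined to W) ≤ Z(W ∪ T) Z(∅) / (Z(W) Z(T)) ≤ 1`, for an arbitrary boundary condition.
-/

namespace Vale.Agent.P167.H635

open Finset Vale.Agent.P167.H623 Vale.Agent.P167.H661

set_option linter.unusedSectionVars false

variable {V E : Type*} [Fintype V] [DecidableEq V] [Fintype E] [DecidableEq E]
  (a b : E → V) {w : E → ℝ} {s : ℝ}

/-- `XX D / XX (D ∪ U)` increases with `D`. -/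
theorem xx_mono (hw : ∀ e, 0 ≤ w e) (hs0 : 0 ≤ s) (hs : s < 1) {D D' U : Finset V} (h : D ⊆ D')
    (hU : Disjoint D' U) :
    XX a b w s D * XX a b w s (D' ∪ U) ≤ XX a b w s D' * XX a b w s (D ∪ U) := by
  obtain ⟨c, h0, h1⟩ := ratio a b w s hw hs0 hs hU
  have e1 := h1 D h
  have e2 := h1 D' subset_rfl
  beta_reduce at e1 e2
  have h2 : XX a b w s D / XX a b w s (D ∪ U) ≤ XX a b w s D' / XX a b w s (D' ∪ U) := by
    rw [e1, e2]
    exact sum_le_sum_of_subset_of_nonneg (powerset_mono.2 h) fun R _ _ => h0 R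
  rwa [div_le_div_iff₀ (XX_pos a b w s hw hs _) (XX_pos a b w s hw hs _)] at h2

theorem nn_univ (T : Finset V) : NN a b w (1 - s) (1 - s) T univ = XX a b w s univ := by
  rw [XX, NN, NN]
  refine sum_congr rfl fun ω _ => ?_
  congr 1
  rw [wt, wt]
  refine prod_congr rfl fun c _ => ?_
  simp [cw]

/-- **Decoupling**, free case. -/
theorem dl_bot (hw : ∀ e, 0 ≤ w e) (hs0 : 0 ≤ s) (hs : s < 1) {W T : Finset V}
    (hWT : Disjoint W T) : NN a b w (1 - s) (1 - s) T Wᶜ * XX a b w s Tᶜ ≤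
      XX a b w s (W ∪ T)ᶜ * XX a b w s univ := by
  rw [← nn_univ a b (w := w) (s := s) T, NN_rec a b w s _ hw, NN_rec a b w s _ hw, sum_mul, mul_sum]
  have hpos : ∀ R : Finset V, 0 ≤ hh a b w R * Phi a b w s (1 - s) T R := fun R =>
    mul_nonneg (hh_nonneg a b w hw _) (Phi_nonneg a b w s _ hw hs0 hs.le (by linarith) _ _)
  have hsub : (Wᶜ.powerset.filter fun R => T ⊆ R) ⊆
      (univ : Finset V).powerset.filter fun R => T ⊆ R :=
    filter_subset_filter _ (powerset_mono.2 (subset_univ _))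
  refine le_trans (sum_le_sum fun R hR => ?_) (sum_le_sum_of_subset_of_nonneg hsub fun R _ _ =>
    mul_nonneg (XX_pos a b w s hw hs _).le
      (mul_nonneg (hpos R) (XX_pos a b w s hw hs _).le))
  rw [mem_filter, mem_powerset, subset_compl_iff_disjoint_right] at hR
  have h1 := xx_mono a b hw hs0 hs (D := (W ∪ R)ᶜ) (D' := (W ∪ T)ᶜ) (U := W)
    (compl_subset_compl.2 (union_subset_union_right hR.2))
    (by rw [disjoint_left]; intro x hx hxW; exact (mem_compl.1 hx) (mem_union_left _ hxW))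
  have e1 : (W ∪ T)ᶜ ∪ W = Tᶜ := by
    ext x
    have := fun h : x ∈ W => disjoint_left.1 hWT h
    simp only [mem_union, mem_compl]
    tauto
  have e2 : (W ∪ R)ᶜ ∪ W = univ \ R := by
    ext x
    have := fun h : x ∈ W => fun h' : x ∈ R => disjoint_left.1 hR.1 h' h
    simp only [mem_union, mem_compl, mem_sdiff, mem_univ, true_and]
    tauto
  have e3 : Wᶜ \ R = (W ∪ R)ᶜ := by
    ext x
    simp only [mem_union, mem_compl, mem_sdiff]
    tauto
  rw [e1, e2] at h1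
  rw [e3]
  have := mul_le_mul_of_nonneg_left h1 (hpos R)
  nlinarith [this]

theorem xx_anti (hw : ∀ e, 0 ≤ w e) (hs0 : 0 ≤ s) (hs : s < 1) {D D' : Finset V} (h : D ⊆ D') :
    XX a b w s D' ≤ XX a b w s D := by
  classical
  rw [XX, XX, NN, NN]
  refine sum_le_sum fun ω _ => mul_le_mul_of_nonneg_left ?_ (prod_nonneg fun e _ => hw e)
  rw [wt, wt]
  refine prod_le_prod (fun c _ => ?_) fun c _ => ?_
  · rw [cw]
    split_ifs <;> linarith
  · rw [cw, cw]
    by_cases h1 : Disjoint c Dᶜ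
    · rw [if_pos h1, if_pos (h1.mono_right (compl_subset_compl.2 h))]
    · rw [if_neg h1, if_pos (disjoint_empty_right c), if_pos (disjoint_empty_right c)]
      split_ifs <;> linarith

theorem dl2_bot (hw : ∀ e, 0 ≤ w e) (hs0 : 0 ≤ s) (hs : s < 1) (W T : Finset V) :
    XX a b w s (W ∪ T)ᶜ * XX a b w s univ ≤ XX a b w s Wᶜ * XX a b w s Tᶜ := by
  have h1 := xx_mono a b hw hs0 hs (D := (W ∪ T)ᶜ) (D' := (T \ W)ᶜ) (U := T \ W) ?_
    disjoint_compl_left
  · have e1 : (W ∪ T)ᶜ ∪ T \ W = Wᶜ := by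
      ext x
      simp only [mem_union, mem_compl, mem_sdiff]
      tauto
    have e2 : (T \ W)ᶜ ∪ T \ W = univ := by
      ext x
      simp only [mem_union, mem_compl, mem_univ, iff_true]
      tauto
    rw [e1, e2] at h1
    have h2 := xx_anti a b hw hs0 hs (D := Tᶜ) (D' := (T \ W)ᶜ)
      (compl_subset_compl.2 sdiff_subset)
    have h3 := mul_le_mul_of_nonneg_right h2 (XX_pos a b w s hw hs Wᶜ).le
    linarith
  · refine compl_subset_compl.2 fun x hx => ?_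
    exact mem_union_right _ (mem_sdiff.1 hx).1

/-! ### The same for an arbitrary boundary condition -/

theorem zs_bot : ZS a b w (1 - s) ⊥ (fun _ => True) = XX a b w s univ := by
  classical
  rw [XX, NN, ZS, filter_true]
  refine sum_congr rfl fun ω _ => ?_
  rw [compl_univ, wt_eq_pow, sup_bot_eq, filter_true_of_mem fun c _ => disjoint_empty_right c]

theorem zs_blk {Y : Finset V} (hY : Y.Nonempty) :
    ZS a b w (1 - s) (blk Y) (fun _ => True) = (1 - s) * XX a b w s Yᶜ := by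
  classical
  rw [XX, NN, ZS, filter_true, mul_sum]
  refine sum_congr rfl fun ω _ => ?_
  rw [compl_compl, wt_eq_pow, card_classes_blk, if_neg hY.ne_empty, pow_succ]
  ring

theorem zs_blk_miss {Y : Finset V} (hY : Y.Nonempty) (X : Finset V) :
    ZS a b w (1 - s) (blk Y) (fun ω => ∀ x ∈ X, ∀ y ∈ Y, ¬ conf a b ω x y) =
      (1 - s) * NN a b w (1 - s) (1 - s) X Yᶜ := by
  classical
  rw [NN, ZS, sum_filter, mul_sum]
  refine sum_congr rfl fun ω _ => ?_
  rw [compl_compl, wt_cw_eq, card_classes_blk, if_neg hY.ne_empty]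
  by_cases hc : ∀ x ∈ X, ∀ y ∈ Y, ¬ conf a b ω x y
  · rw [if_pos ((cond_iff a b).2 hc), if_pos hc, pow_succ]
    ring
  · rw [if_neg (fun k => hc ((cond_iff a b).1 k)), if_neg hc]
    ring

theorem zs_zero {q : ℝ} {ρ : Setoid V} {A : Finset E → Prop} (h : ∀ ω, ¬ A ω) :
    ZS a b w q ρ A = 0 := by
  classical
  rw [ZS]
  exact sum_eq_zero fun ω hω => absurd (mem_filter.1 hω).2 (h ω)

theorem dl1_bot {q : ℝ} (hw : ∀ e, 0 ≤ w e) (hq0 : 0 < q) (hq1 : q ≤ 1) {W T : Finset V}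
    (hW : W.Nonempty) (hT : T.Nonempty) :
    ZS a b w q (blk W) (fun ω => ∀ x ∈ T, ∀ y ∈ W, ¬ conf a b ω x y) *
        ZS a b w q (blk T) (fun _ => True) ≤
      q * (ZS a b w q (blk (W ∪ T)) (fun _ => True) * ZS a b w q ⊥ (fun _ => True)) := by
  classical
  obtain ⟨s, rfl⟩ : ∃ s, q = 1 - s := ⟨1 - q, by ring⟩
  have hs0 : 0 ≤ s := by linarith
  have hs1 : s < 1 := by linarith
  by_cases hWT : Disjoint W T
  · rw [zs_blk_miss a b hW, zs_blk a b hT, zs_blk a b (hW.mono subset_union_left), zs_bot a b]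
    have h := dl_bot a b hw hs0 hs1 hWT
    have h2 := mul_le_mul_of_nonneg_left h (mul_self_nonneg (1 - s))
    linarith [h2]
  · obtain ⟨x, hxW, hxT⟩ := not_disjoint_iff.1 hWT
    have h0 : ZS a b w (1 - s) (blk W) (fun ω => ∀ x ∈ T, ∀ y ∈ W, ¬ conf a b ω x y) = 0 := by
      exact zs_zero a b fun ω h => h x hxT x hxW (Setoid.refl' _ x)
    rw [h0, zero_mul]
    exact mul_nonneg hq0.le (mul_nonneg (ZS_pos a b hw hq0 _).le (ZS_pos a b hw hq0 _).le)

theorem dl2_bot' {q : ℝ} (hw : ∀ e, 0 ≤ w e) (hq0 : 0 < q) (hq1 : q ≤ 1) {W T : Finset V}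
    (hW : W.Nonempty) (hT : T.Nonempty) :
    q * (ZS a b w q (blk (W ∪ T)) (fun _ => True) * ZS a b w q ⊥ (fun _ => True)) ≤
      ZS a b w q (blk W) (fun _ => True) * ZS a b w q (blk T) (fun _ => True) := by
  obtain ⟨s, rfl⟩ : ∃ s, q = 1 - s := ⟨1 - q, by ring⟩
  have hs0 : 0 ≤ s := by linarith
  have hs1 : s < 1 := by linarith
  rw [zs_blk a b hW, zs_blk a b hT, zs_blk a b (hW.mono subset_union_left), zs_bot a b]
  have h := dl2_bot a b hw hs0 hs1 W T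
  have h2 := mul_le_mul_of_nonneg_left h (mul_self_nonneg (1 - s))
  linarith [h2]

section mk

variable (ρ : Setoid V)

open Classical in
theorem zs_mk {q : ℝ} [Fintype (Quotient ρ)] {σ' : Setoid (Quotient ρ)} {σ : Setoid V}
    (h : ∀ (ω : Finset E) (x y : V), (conf (fun e => Quotient.mk ρ (a e))
      (fun e => Quotient.mk ρ (b e)) ω ⊔ σ') (Quotient.mk ρ x) (Quotient.mk ρ y) ↔
      (conf a b ω ⊔ σ) x y) {A B : Finset E → Prop} (hAB : ∀ ω, A ω ↔ B ω) :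
    ZS (fun e => Quotient.mk ρ (a e)) (fun e => Quotient.mk ρ (b e)) w q σ' A =
      ZS a b w q σ B := by
  rw [ZS_congr _ _ hAB, ZS, ZS]
  exact sum_congr rfl fun ω _ => by
    rw [card_classes_mk (Quotient.mk ρ) Quotient.mk_surjective (h ω)]

open Classical in
theorem mk_blk (Y : Finset V) [Fintype (Quotient ρ)] (ω : Finset E) (x y : V) :
    (conf (fun e => Quotient.mk ρ (a e)) (fun e => Quotient.mk ρ (b e)) ω ⊔
      blk (Y.image (Quotient.mk ρ))) (Quotient.mk ρ x) (Quotient.mk ρ y) ↔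
      (conf a b ω ⊔ (ρ ⊔ blk Y)) x y := by
  rw [← sup_assoc, sup_blk_iff (conf a b ω ⊔ ρ) Y x y, sup_blk_iff]
  refine or_congr (conf_mk a b ρ ω x y) (and_congr ?_ ?_)
  · constructor
    · rintro ⟨z', hz', k⟩
      obtain ⟨z, hz, rfl⟩ := mem_image.1 hz'
      exact ⟨z, hz, (conf_mk a b ρ ω x z).1 k⟩
    · rintro ⟨z, hz, hz'⟩
      exact ⟨_, mem_image_of_mem _ hz, (conf_mk a b ρ ω x z).2 hz'⟩
  · constructor
    · rintro ⟨z', hz', k⟩
      obtain ⟨z, hz, rfl⟩ := mem_image.1 hz'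
      exact ⟨z, hz, (conf_mk a b ρ ω y z).1 k⟩
    · rintro ⟨z, hz, hz'⟩
      exact ⟨_, mem_image_of_mem _ hz, (conf_mk a b ρ ω y z).2 hz'⟩

end mk

open Classical in
/-- **Decoupling**: `P^{ρ, W}(T !~ W) ≤ Z^{W ∪ T} Z / (Z^W Z^T)`. -/
theorem dl1 {q : ℝ} (hw : ∀ e, 0 ≤ w e) (hq0 : 0 < q) (hq1 : q ≤ 1) (ρ : Setoid V)
    {W T : Finset V} (hW : W.Nonempty) (hT : T.Nonempty) :
    ZS a b w q (ρ ⊔ blk W) (fun ω => ∀ x ∈ T, ∀ y ∈ W, ¬ (conf a b ω ⊔ ρ) x y) *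
        ZS a b w q (ρ ⊔ blk T) (fun _ => True) ≤
      q * (ZS a b w q (ρ ⊔ blk (W ∪ T)) (fun _ => True) * ZS a b w q ρ (fun _ => True)) := by
  have : Fintype (Quotient ρ) := Fintype.ofFinite _
  have h := dl1_bot (fun e => Quotient.mk ρ (a e)) (fun e => Quotient.mk ρ (b e)) hw hq0 hq1
    (hW.image (Quotient.mk ρ)) (hT.image (Quotient.mk ρ))
  have hA : ∀ ω : Finset E, (∀ x ∈ T.image (Quotient.mk ρ), ∀ y ∈ W.image (Quotient.mk ρ),
      ¬ conf (fun e => Quotient.mk ρ (a e)) (fun e => Quotient.mk ρ (b e)) ω x y) ↔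
      ∀ x ∈ T, ∀ y ∈ W, ¬ (conf a b ω ⊔ ρ) x y := by
    intro ω
    constructor
    · intro k x hx y hy hxy
      exact k _ (mem_image_of_mem _ hx) _ (mem_image_of_mem _ hy) ((conf_mk a b ρ ω x y).2 hxy)
    · intro k u hu v hv huv
      obtain ⟨x, hx, rfl⟩ := mem_image.1 hu
      obtain ⟨y, hy, rfl⟩ := mem_image.1 hv
      exact k x hx y hy ((conf_mk a b ρ ω x y).1 huv)
  rw [← image_union, zs_mk a b ρ (mk_blk a b ρ W) hA, zs_mk a b ρ (mk_blk a b ρ T) fun _ => Iff.rfl,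
    zs_mk a b ρ (mk_blk a b ρ (W ∪ T)) fun _ => Iff.rfl,
    zs_mk a b ρ (σ := ρ) (fun ω x y => by rw [sup_bot_eq]; exact conf_mk a b ρ ω x y)
      fun _ => Iff.rfl] at h
  exact h

open Classical in
/-- **Decoupling**: `Z^{W ∪ T} Z ≤ Z^W Z^T`. -/
theorem dl2 {q : ℝ} (hw : ∀ e, 0 ≤ w e) (hq0 : 0 < q) (hq1 : q ≤ 1) (ρ : Setoid V)
    {W T : Finset V} (hW : W.Nonempty) (hT : T.Nonempty) :
    q * (ZS a b w q (ρ ⊔ blk (W ∪ T)) (fun _ => True) * ZS a b w q ρ (fun _ => True)) ≤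
      ZS a b w q (ρ ⊔ blk W) (fun _ => True) * ZS a b w q (ρ ⊔ blk T) (fun _ => True) := by
  have : Fintype (Quotient ρ) := Fintype.ofFinite _
  have h := dl2_bot' (fun e => Quotient.mk ρ (a e)) (fun e => Quotient.mk ρ (b e)) hw hq0 hq1
    (hW.image (Quotient.mk ρ)) (hT.image (Quotient.mk ρ))
  rw [← image_union, zs_mk a b ρ (mk_blk a b ρ W) fun _ => Iff.rfl,
    zs_mk a b ρ (mk_blk a b ρ T) fun _ => Iff.rfl,
    zs_mk a b ρ (mk_blk a b ρ (W ∪ T)) fun _ => Iff.rfl,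
    zs_mk a b ρ (σ := ρ) (fun ω x y => by rw [sup_bot_eq]; exact conf_mk a b ρ ω x y)
      fun _ => Iff.rfl] at h
  exact h

end Vale.Agent.P167.H635
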