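import Vale.Agent.P167.H635.Box
import Vale.Agent.P167.H519.GLim

/-!
# The infinite-volume measure, `q ≤ 1`
-/

namespace Vale.Agent.P167.H635

open Finset Filter Topology MeasureTheory Vale.Agent.P167.FK Vale.Agent.P167.FKA
open Vale.Agent.P167.H259 (f_markov Ex_out)
open Vale.Agent.P167.H519 (cf_in IsLim Cau Cau.add Cau.smul exists_Bq Bq_mono lawq lawq_int
  lawq_prob loc_cont)

variable {Q : ℝ}

theorem cau_one (hQ0 : 0 < Q) (hQ1 : Q ≤ 1) {α C : ℝ} (hα : 0 < α) (hA : ArmDec Q α C)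
    {B : Finset (ℤ × ℤ)} {F : Cfg → ℝ} (hF0 : ∀ ω, 0 ≤ F ω) (hF1 : ∀ ω, F ω ≤ 1)
    (hL : Loc B F) : Cau Q F := by
  intro ε hε
  obtain ⟨r, hr, hB⟩ := exists_Bq B
  have hr0 : (0 : ℝ) < r := by exact_mod_cast (by omega : 0 < r)
  have h3 : Tendsto (fun x : ℝ => C * (r / x) ^ α) atTop (𝓝 (C * 0)) := by
    refine Tendsto.const_mul C ?_
    have h4 : Tendsto (fun x : ℝ => r ^ α * x ^ (-α)) atTop (𝓝 ((r : ℝ) ^ α * 0)) :=
      (tendsto_rpow_neg_atTop hα).const_mul _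
    rw [mul_zero] at h4
    refine h4.congr' ?_
    filter_upwards [eventually_gt_atTop 0] with x hx
    rw [Real.rpow_neg hx.le, Real.div_rpow hr0.le hx.le]
    rfl
  rw [mul_zero] at h3
  obtain ⟨x0, hx0⟩ := eventually_atTop.1 (h3.eventually (ge_mem_nhds (half_pos hε)))
  obtain ⟨n, hn⟩ := exists_nat_ge x0
  set R : ℤ := max r n with hR
  set p : ℝ := C * ((r : ℝ) / R) ^ α with hp
  have hpε : p ≤ ε / 2 := hx0 (R : ℝ) (by
    refine hn.trans ?_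
    exact_mod_cast le_max_right r (n : ℤ))
  set W := Ex Q (Bq 0 R) (wir 0 R) F with hW
  have bd : ∀ ζ : Cfg, 0 ≤ Ex Q (Bq 0 R) ζ F ∧ Ex Q (Bq 0 R) ζ F ≤ 1 := fun ζ =>
    ⟨Ex_nonneg hQ0 fun _ _ => hF0 _, by
      rw [← Ex_const (Q := Q) (D := Bq 0 R) (η := ζ) hQ0 1]
      exact Ex_mono hQ0 fun _ _ => hF1 _⟩
  have h5 : ∀ ζ : Cfg, Good ζ → Ex Q (Bq 0 R) ζ F ≤ W + ε / 2 ∧
      W - ε / 2 ≤ Ex Q (Bq 0 R) ζ F := by
    intro ζ hζ
    obtain ⟨k1, k2⟩ := dec_w hQ0 hQ1 hA hr (le_max_left r (n : ℤ)) hB hF0 hL hζ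
    rw [← hR, ← hW, ← hp] at k1 k2
    obtain ⟨b1, b2⟩ := bd ζ
    obtain ⟨b3, b4⟩ := bd (wir 0 R)
    have e1 : p * Ex Q (Bq 0 R) ζ F ≤ ε / 2 * 1 :=
      mul_le_mul hpε b2 b1 (half_pos hε).le
    have e2 : p * W ≤ ε / 2 * 1 := mul_le_mul hpε b4 b3 (half_pos hε).le
    constructor <;> linarith
  have h6 : ∀ (D : Finset (ℤ × ℤ)) (η : Cfg), Bq 0 R ⊆ D → Good η →
      Ex Q D η F ≤ W + ε / 2 ∧ W - ε / 2 ≤ Ex Q D η F := by
    intro D η hD hη
    rw [f_markov Q (Bq 0 R) D η F hQ0 hD hη]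
    constructor
    · rw [← Ex_const (Q := Q) (D := D) (η := η) hQ0 (W + ε / 2)]
      exact Ex_mono hQ0 fun S _ => (h5 _ (f_good.1 D η S hη)).1
    · rw [← Ex_const (Q := Q) (D := D) (η := η) hQ0 (W - ε / 2)]
      exact Ex_mono hQ0 fun S _ => (h5 _ (f_good.1 D η S hη)).2
  refine ⟨R, fun D D' η η' hD hD' hη hη' => ?_⟩
  obtain ⟨a1, a2⟩ := h6 D η hD hη
  obtain ⟨a3, a4⟩ := h6 D' η' hD' hη'
  rw [abs_le]
  constructor <;> linarith

theorem cau_const (hQ0 : 0 < Q) (c : ℝ) : Cau Q (fun _ => c) := by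
  intro ε hε
  refine ⟨0, fun D D' η η' _ _ _ _ => ?_⟩
  rw [Ex_const hQ0, Ex_const hQ0, sub_self, abs_zero]
  exact hε.le

theorem loc_bdd {B : Finset (ℤ × ℤ)} {F : Cfg → ℝ} (hF : Loc B F) :
    ∃ M : ℝ, 0 < M ∧ ∀ ω, |F ω| ≤ M := by
  classical
  refine ⟨∑ S ∈ B.powerset, |F (cf B eta0 S)| + 1, ?_, fun ω => ?_⟩
  · have : 0 ≤ ∑ S ∈ B.powerset, |F (cf B eta0 S)| := sum_nonneg fun _ _ => abs_nonneg _
    linarith
  · have h1 : F ω = F (cf B eta0 (B.filter fun v => ω v = true)) := by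
      refine hF _ _ fun v hv => ?_
      rw [cf_in hv]
      cases h : ω v <;> simp [hv, h]
    rw [h1]
    have h2 := Finset.single_le_sum (f := fun S => |F (cf B eta0 S)|)
      (fun i _ => abs_nonneg _) (mem_powerset.2 (filter_subset (fun v => ω v = true) B))
    linarith

/-- Every local function has the Cauchy property. -/
theorem cau_loc (hQ0 : 0 < Q) (hQ1 : Q ≤ 1) {α C : ℝ} (hα : 0 < α) (hA : ArmDec Q α C)
    {B : Finset (ℤ × ℤ)} {F : Cfg → ℝ} (hF : Loc B F) : Cau Q F := by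
  obtain ⟨M, hM, hb⟩ := loc_bdd hF
  have h1 : Cau Q (fun ω => (F ω + M) / (2 * M)) := by
    refine cau_one hQ0 hQ1 hα hA (B := B) (fun ω => ?_) (fun ω => ?_) (fun ω ω' h => ?_)
    · have := (abs_le.1 (hb ω)).1
      exact div_nonneg (by linarith) (by linarith)
    · have := (abs_le.1 (hb ω)).2
      rw [div_le_one (by linarith)]
      linarith
    · show (F ω + M) / (2 * M) = (F ω' + M) / (2 * M)
      rw [hF ω ω' h]
  have h2 := (h1.smul (2 * M)).add (cau_const hQ0 (-M))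
  have h3 : (fun ω => 2 * M * ((F ω + M) / (2 * M)) + -M) = F := by
    funext ω
    field_simp
    ring
  rw [h3] at h2
  exact h2

theorem exists_lim (hQ0 : 0 < Q) (hQ1 : Q ≤ 1) {α C : ℝ} (hα : 0 < α) (hA : ArmDec Q α C) :
    ∃ P : Measure Cfg, IsLim Q P := by
  set law : ℕ → ProbabilityMeasure Cfg := fun n => ⟨lawq Q (Bq 0 n) eta0, lawq_prob hQ0 _ _⟩
    with hlaw
  obtain ⟨P, -, hP⟩ := isCompact_univ.ultrafilter_le_nhds ((hyperfilter ℕ).map law) (by simp)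
  have hP' : Tendsto law (hyperfilter ℕ) (𝓝 P) := hP
  rw [ProbabilityMeasure.tendsto_iff_forall_integral_tendsto] at hP'
  refine ⟨P, inferInstance, fun B F hF ε hε => ?_⟩
  have hc := cau_loc hQ0 hQ1 hα hA hF
  obtain ⟨R, hR⟩ := hc ε hε
  refine ⟨R, fun D η hD hη => ?_⟩
  have h1 := hP' (BoundedContinuousFunction.mkOfCompact ⟨F, loc_cont hF⟩)
  simp only [BoundedContinuousFunction.mkOfCompact_apply, ContinuousMap.coe_mk] at h1
  have h2 : Tendsto (fun n : ℕ => |Ex Q D η F - Ex Q (Bq 0 n) eta0 F|) (hyperfilter ℕ)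
      (𝓝 |Ex Q D η F - ∫ ω, F ω ∂(P : Measure Cfg)|) := by
    refine (Tendsto.const_sub _ ?_).abs
    refine h1.congr fun n => ?_
    exact lawq_int hQ0 _ _ F
  refine le_of_tendsto h2 ?_
  have h3 : ∀ᶠ n : ℕ in hyperfilter ℕ, R ≤ n :=
    Nat.hyperfilter_le_atTop (by
      filter_upwards [eventually_ge_atTop R.toNat] with n hn
      omega)
  filter_upwards [h3] with n hn
  exact hR D (Bq 0 n) η eta0 hD (Bq_mono hn) hη f_good.2.1

end Vale.Agent.P167.H635
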