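import Vale.Agent.P167.H635.DL

/-!
# Bounded ratio of the laws of the inner edges, `q ≤ 1`

`E0`: edges with both ends in `T`. The law of the edges of `E0` for the boundary conditions `ρ` and
`ρ` with `W` wired: the ratio of the two laws is controlled by the probability that `T` is not
joined to `W`, uniformly in the state of the edges of `E0`.
-/

namespace Vale.Agent.P167.H635

open Finset Vale.Agent.P167.H623 Vale.Agent.P167.H661

set_option linter.unusedSectionVars false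

variable {V E : Type*} [Fintype V] [DecidableEq V] [Fintype E] [DecidableEq E]
  (a b : E → V) {w : E → ℝ} {q : ℝ}

/-- The weights off `E0`. -/
def wO (w : E → ℝ) (E0 : Finset E) (e : E) : ℝ := if e ∈ E0 then 0 else w e

theorem conf_union (S U : Finset E) : conf a b (S ∪ U) = conf a b U ⊔ conf a b S := by
  refine le_antisymm ?_ (sup_le (conf_mono a b subset_union_right) (conf_mono a b
    subset_union_left))
  refine (conf_le_iff a b).2 fun e he => ?_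
  have h1 : conf a b U ≤ conf a b U ⊔ conf a b S := le_sup_left
  have h2 : conf a b S ≤ conf a b U ⊔ conf a b S := le_sup_right
  rcases mem_union.1 he with h | h
  · exact h2 (conf_edge a b h)
  · exact h1 (conf_edge a b h)

theorem inter_sd (ω E0 : Finset E) : ω ∩ E0 ∪ ω \ E0 = ω := by
  rw [union_comm]
  exact sdiff_union_inter ω E0

/-- Conditioning on the state of the edges of `E0`. -/
theorem zs_cond (ρ : Setoid V) {E0 S : Finset E} (hS : S ⊆ E0) (A : Finset E → Prop) :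
    ZS a b w q ρ (fun ω => ω ∩ E0 = S ∧ A ω) =
      (∏ e ∈ S, w e) * ZS a b (wO w E0) q (ρ ⊔ conf a b S) (fun ω => A (S ∪ ω)) := by
  classical
  obtain ⟨P, hP⟩ : ∃ P : Finset E → Prop, ∀ ω, P ω ↔ (ω ∩ E0 = S ∧ A ω) :=
    ⟨_, fun _ => Iff.rfl⟩
  obtain ⟨B, hB⟩ : ∃ B : Finset E → Prop, ∀ ω, B ω ↔ A (S ∪ ω) := ⟨_, fun _ => Iff.rfl⟩
  obtain ⟨C, hC⟩ : ∃ C : Finset E → Prop, ∀ ω, C ω ↔ (ω ∩ E0 = ∅ ∧ B ω) :=
    ⟨_, fun _ => Iff.rfl⟩
  rw [← ZS_congr a b hP, ← ZS_congr a b hB, ZS, ZS, mul_sum]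
  have hsub : ((univ : Finset E).powerset.filter C) ⊆ (univ : Finset E).powerset.filter B := by
    intro U hU
    rw [mem_filter] at hU ⊢
    exact ⟨hU.1, ((hC U).1 hU.2).2⟩
  rw [← sum_subset hsub]
  · refine sum_nbij' (fun ω => ω \ E0) (fun U => S ∪ U) ?_ ?_ ?_ ?_ ?_
    · intro ω hω
      rw [mem_filter, hP] at hω
      rw [mem_filter, hC, hB]
      have h1 : S ∪ ω \ E0 = ω := by
        rw [← hω.2.1]
        exact inter_sd ω E0
      exact ⟨mem_powerset.2 (subset_univ _), sdiff_inter_self E0 ω, by rw [h1]; exact hω.2.2⟩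
    · intro U hU
      rw [mem_filter, hC, hB] at hU
      rw [mem_filter, hP]
      refine ⟨mem_powerset.2 (subset_univ _), ?_, hU.2.2⟩
      rw [union_inter_distrib_right, hU.2.1, union_empty, inter_eq_left.2 hS]
    · intro ω hω
      rw [mem_filter, hP] at hω
      show S ∪ ω \ E0 = ω
      rw [← hω.2.1]
      exact inter_sd ω E0
    · intro U hU
      rw [mem_filter, hC] at hU
      show (S ∪ U) \ E0 = U
      rw [union_sdiff_distrib, sdiff_eq_empty_iff_subset.2 hS, empty_union]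
      exact sdiff_eq_self_of_disjoint (disjoint_iff_inter_eq_empty.2 hU.2.1)
    · intro ω hω
      rw [mem_filter, hP] at hω
      have h1 : S ∪ ω \ E0 = ω := by
        rw [← hω.2.1]
        exact inter_sd ω E0
      have hd : Disjoint S (ω \ E0) := disjoint_sdiff.mono_left hS
      have h2 : ∏ e ∈ ω \ E0, wO w E0 e = ∏ e ∈ ω \ E0, w e :=
        prod_congr rfl fun e he => if_neg (mem_sdiff.1 he).2
      have h3 : conf a b (ω \ E0) ⊔ (ρ ⊔ conf a b S) = conf a b ω ⊔ ρ := by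
        conv_rhs => rw [← h1, conf_union]
        rw [sup_comm ρ, ← sup_assoc]
      rw [h2, h3, ← mul_assoc, ← prod_union hd, h1]
  · intro U hU hU'
    rw [mem_filter] at hU hU'
    have h1 : (U ∩ E0).Nonempty := by
      rw [nonempty_iff_ne_empty]
      exact fun h => hU' ⟨hU.1, (hC U).2 ⟨h, hU.2⟩⟩
    obtain ⟨e, he⟩ := h1
    rw [mem_inter] at he
    rw [prod_eq_zero he.1 (if_pos he.2 : wO w E0 e = 0)]
    ring

theorem zs_cond_true (ρ : Setoid V) {E0 S : Finset E} (hS : S ⊆ E0) :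
    ZS a b w q ρ (fun ω => ω ∩ E0 = S) =
      (∏ e ∈ S, w e) * ZS a b (wO w E0) q (ρ ⊔ conf a b S) (fun _ => True) := by
  rw [← zs_cond a b ρ hS fun _ => True]
  exact ZS_congr a b fun ω => by simp

theorem conf_le_blk {E0 S : Finset E} (hS : S ⊆ E0) {T : Finset V}
    (hE : ∀ e ∈ E0, a e ∈ T ∧ b e ∈ T) : conf a b S ≤ blk T :=
  (conf_le_iff a b).2 fun e he => Or.inr (hE e (hS he))

theorem blk_mono {T T' : Finset V} (h : T ⊆ T') : blk T ≤ blk T' := by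
  intro x y hxy
  rcases hxy with k | k
  · exact Or.inl k
  · exact Or.inr ⟨h k.1, h k.2⟩

/-- **Bounded ratio**. -/
theorem star (hw : ∀ e, 0 ≤ w e) (hq0 : 0 < q) (hq1 : q ≤ 1) (ρ : Setoid V) {W T : Finset V}
    (hW : W.Nonempty) (hT : T.Nonempty) {E0 S S' : Finset E} (hE : ∀ e ∈ E0, a e ∈ T ∧ b e ∈ T)
    (hS : S ⊆ E0) (hS' : S' ⊆ E0) :
    ZS a b w q (ρ ⊔ blk W) (fun ω => ω ∩ E0 = S ∧ ∀ x ∈ T, ∀ y ∈ W, ¬ (conf a b ω ⊔ ρ) x y) *
        ZS a b w q ρ (fun ω => ω ∩ E0 = S') ≤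
      ZS a b w q ρ (fun ω => ω ∩ E0 = S) * ZS a b w q (ρ ⊔ blk W) (fun ω => ω ∩ E0 = S') := by
  have hw' : ∀ e, 0 ≤ wO w E0 e := fun e => by
    rw [wO]
    split_ifs
    · exact le_rfl
    · exact hw e
  have hA : ∀ ω : Finset E, (∀ x ∈ T, ∀ y ∈ W, ¬ (conf a b (S ∪ ω) ⊔ ρ) x y) ↔
      ∀ x ∈ T, ∀ y ∈ W, ¬ (conf a b ω ⊔ (ρ ⊔ conf a b S)) x y := by
    intro ω
    rw [conf_union, sup_assoc, sup_comm (conf a b S)]
  rw [zs_cond a b (ρ ⊔ blk W) hS, zs_cond_true a b ρ hS, zs_cond_true a b ρ hS',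
    zs_cond_true a b (ρ ⊔ blk W) hS', ZS_congr a b hA]
  have e1 : ∀ S, (ρ ⊔ blk W) ⊔ conf a b S = (ρ ⊔ conf a b S) ⊔ blk W := fun S => sup_right_comm _ _ _
  have e2 : ∀ S ⊆ E0, (ρ ⊔ conf a b S) ⊔ blk T = ρ ⊔ blk T := fun S hS => by
    rw [sup_assoc, sup_eq_right.2 (conf_le_blk a b hS hE)]
  have e3 : ∀ S ⊆ E0, (ρ ⊔ conf a b S) ⊔ blk (W ∪ T) = ρ ⊔ blk (W ∪ T) := fun S hS => by
    rw [sup_assoc, sup_eq_right.2 ((conf_le_blk a b hS hE).trans (blk_mono subset_union_right))]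
  have k1 := dl1 a b hw' hq0 hq1 (ρ ⊔ conf a b S) hW hT
  have k2 := dl2 a b hw' hq0 hq1 (ρ ⊔ conf a b S') hW hT
  rw [e2 S hS, e3 S hS, ← e1] at k1
  rw [e2 S' hS', e3 S' hS', ← e1] at k2
  have p1 := ZS_pos a b hw' hq0 (ρ ⊔ blk T)
  have p2 := ZS_pos a b hw' hq0 (ρ ⊔ blk (W ∪ T))
  have p3 := ZS_pos a b hw' hq0 (ρ ⊔ conf a b S)
  have p4 := ZS_pos a b hw' hq0 (ρ ⊔ conf a b S')
  set M := ZS a b (wO w E0) q (ρ ⊔ blk W ⊔ conf a b S)
    (fun ω => ∀ x ∈ T, ∀ y ∈ W, ¬ (conf a b ω ⊔ (ρ ⊔ conf a b S)) x y)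
  set Y0 := ZS a b (wO w E0) q (ρ ⊔ blk T) (fun _ => True)
  set Y1 := ZS a b (wO w E0) q (ρ ⊔ blk (W ∪ T)) (fun _ => True)
  set z := ZS a b (wO w E0) q (ρ ⊔ conf a b S) (fun _ => True)
  set z' := ZS a b (wO w E0) q (ρ ⊔ conf a b S') (fun _ => True)
  set W' := ZS a b (wO w E0) q (ρ ⊔ blk W ⊔ conf a b S') (fun _ => True)
  have h0 : 0 ≤ ∏ e ∈ S, w e := prod_nonneg fun e _ => hw e
  have h0' : 0 ≤ ∏ e ∈ S', w e := prod_nonneg fun e _ => hw e
  -- `M Y0 ≤ q Y1 z`, `q Y1 z' ≤ W' Y0`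
  have k3 : M * z' ≤ z * W' := by
    have k4 : (M * Y0) * z' ≤ (z * W') * Y0 := by
      calc (M * Y0) * z' ≤ (q * (Y1 * z)) * z' := mul_le_mul_of_nonneg_right k1 p4.le
        _ = (q * (Y1 * z')) * z := by ring
        _ ≤ (W' * Y0) * z := mul_le_mul_of_nonneg_right k2 p3.le
        _ = _ := by ring
    refine le_of_mul_le_mul_right ?_ p1
    linarith
  have k5 := mul_le_mul_of_nonneg_left k3 (mul_nonneg h0 h0')
  linarith

end Vale.Agent.P167.H635
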